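import Vale.Agent.P259.SimpModels

/-!
# P259, realisation: labels of vertices and relabelling
-/

namespace Vale.Agent.P259

open P259.Complex

noncomputable section

namespace SimpSys.Vert

variable {S : SimpSys}

/-- The labels of a vertex. -/
def labs (y : S.Vert) : Finset ℚ := Finset.univ.image y.lab

theorem mem_labs {y : S.Vert} {a : ℚ} : a ∈ y.labs ↔ ∃ i, y.lab i = a := by
  simp [labs]

theorem lab_mem (y : S.Vert) (i : Fin (y.k + 1)) : y.lab i ∈ y.labs :=
  mem_labs.2 ⟨i, rfl⟩

theorem labs_nonempty (y : S.Vert) : y.labs.Nonempty := ⟨_, y.lab_mem 0⟩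

/-- The largest label. -/
def maxLab (y : S.Vert) : ℚ := y.lab (Fin.last y.k)

theorem maxLab_mem (y : S.Vert) : y.maxLab ∈ y.labs := y.lab_mem _

theorem le_maxLab (y : S.Vert) {a : ℚ} (ha : a ∈ y.labs) : a ≤ y.maxLab := by
  obtain ⟨i, rfl⟩ := mem_labs.1 ha
  exact y.strictMono.monotone (Fin.le_last i)

theorem labs_subset {x y : S.Vert} (h : x ≤ y) : x.labs ⊆ y.labs := by
  obtain ⟨δ, hδ, -⟩ := h
  intro a ha
  obtain ⟨i, rfl⟩ := mem_labs.1 ha
  exact mem_labs.2 ⟨δ i, congrFun hδ i⟩

theorem maxLab_mono {x y : S.Vert} (h : x ≤ y) : x.maxLab ≤ y.maxLab :=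
  y.le_maxLab (labs_subset h x.maxLab_mem)

/-- A vertex is its labels and its simplex. -/
theorem ext_of {k k' : ℕ} {lab : Fin (k + 1) → ℚ} {lab' : Fin (k' + 1) → ℚ}
    {hl : StrictMono lab} {hl' : StrictMono lab'} {g : S.S k} {g' : S.S k'}
    (h : Set.range lab = Set.range lab')
    (hg : ∀ δ : Op k k', lab' ∘ δ = lab → S.op δ g' = g) :
    (⟨k, lab, hl, g⟩ : S.Vert) = ⟨k', lab', hl', g'⟩ := by
  have hkk : k = k' := by
    have h1 : (Finset.univ.image lab).card = k + 1 := by
      simp [Finset.card_image_of_injective _ hl.injective]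
    have h2 : (Finset.univ.image lab').card = k' + 1 := by
      simp [Finset.card_image_of_injective _ hl'.injective]
    have h3 : Finset.univ.image lab = Finset.univ.image lab' :=
      Finset.coe_injective (by simpa using h)
    rw [h3] at h1
    omega
  subst hkk
  have hlab : lab = lab' := (hl.range_inj hl').1 h
  subst hlab
  have := hg OrderHom.id rfl
  rw [S.op_id] at this
  rw [this]

/-- The position of a label. -/
def idx (y : S.Vert) (a : ℚ) (ha : a ∈ y.labs) : Fin (y.k + 1) := (mem_labs.1 ha).choose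

theorem lab_idx (y : S.Vert) {a : ℚ} (ha : a ∈ y.labs) : y.lab (y.idx a ha) = a :=
  (mem_labs.1 ha).choose_spec

theorem card_pred_add_one {L : Finset ℚ} (hL : L.Nonempty) : L.card = L.card - 1 + 1 :=
  (Nat.succ_pred_eq_of_pos (Finset.card_pos.2 hL)).symm

variable (y : S.Vert) (L : Finset ℚ) (hL : L.Nonempty) (m : ℚ → ℚ)
  (hm : MonotoneOn m (L : Set ℚ)) (hy : ∀ a ∈ L, m a ∈ y.labs)

/-- The operator of a relabelling. -/
def pullOp : Op (L.card - 1) y.k where
  toFun i := y.idx (m (L.orderEmbOfFin (card_pred_add_one hL) i))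
    (hy _ (L.orderEmbOfFin_mem _ i))
  monotone' i j hij := y.strictMono.le_iff_le.1 (by
    rw [y.lab_idx, y.lab_idx]
    exact hm (L.orderEmbOfFin_mem _ i) (L.orderEmbOfFin_mem _ j)
      ((L.orderEmbOfFin (card_pred_add_one hL)).monotone hij))

/-- The vertex with labels `L` pulled back from `y` along `m`. -/
def pull : S.Vert where
  k := L.card - 1
  lab := L.orderEmbOfFin (card_pred_add_one hL)
  strictMono := (L.orderEmbOfFin (card_pred_add_one hL)).strictMono
  g := S.op (pullOp y L hL m hm hy) y.g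

theorem lab_pullOp (i : Fin (L.card - 1 + 1)) :
    y.lab (pullOp y L hL m hm hy i) = m (L.orderEmbOfFin (card_pred_add_one hL) i) :=
  y.lab_idx (hy _ (L.orderEmbOfFin_mem _ i))

theorem range_pull : Set.range (pull y L hL m hm hy).lab = (L : Set ℚ) :=
  Finset.range_orderEmbOfFin _ _

theorem labs_pull : (pull y L hL m hm hy).labs = L := by
  refine Finset.coe_injective ?_
  rw [labs, Finset.coe_image, Finset.coe_univ, Set.image_univ, range_pull]

/-- A pulled vertex is recognised by its operator. -/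
theorem pull_eq_mk {k : ℕ} (lab : Fin (k + 1) → ℚ) (hlab : StrictMono lab)
    (hrange : Set.range lab = (L : Set ℚ)) (a : Op k y.k)
    (ha : ∀ i, y.lab (a i) = m (lab i)) :
    pull y L hL m hm hy = ⟨k, lab, hlab, S.op a y.g⟩ := by
  refine ext_of ((range_pull y L hL m hm hy).trans hrange.symm) fun δ hδ => ?_
  have hinj : Function.Injective δ := fun p q hpq =>
    (L.orderEmbOfFin (card_pred_add_one hL)).injective
      (((congrFun hδ p).symm.trans (congrArg lab hpq)).trans (congrFun hδ q))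
  rw [S.op_face_op δ a y.g hinj]
  congr 1
  refine OrderHom.ext _ _ (funext fun i => y.strictMono.injective ?_)
  show y.lab (a (δ i)) = y.lab (pullOp y L hL m hm hy i)
  rw [ha, lab_pullOp, show lab (δ i) = _ from congrFun hδ i]

/-- Pulling along the identity gives the vertex back. -/
theorem pull_self (hm' : MonotoneOn m (y.labs : Set ℚ)) (hy' : ∀ a ∈ y.labs, m a ∈ y.labs)
    (hid : ∀ a ∈ y.labs, m a = a) : pull y y.labs y.labs_nonempty m hm' hy' = y := by
  rw [pull_eq_mk y y.labs y.labs_nonempty m hm' hy' y.lab y.strictMono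
    (by rw [labs, Finset.coe_image, Finset.coe_univ, Set.image_univ]) OrderHom.id
    (fun i => (hid _ (y.lab_mem i)).symm), S.op_id]

/-- Monotonicity of relabelling. -/
theorem pull_le {x y : S.Vert} (hxy : x ≤ y) {L L' : Finset ℚ} (hL : L.Nonempty)
    (hL' : L'.Nonempty) (hLL : L ⊆ L') (m : ℚ → ℚ) (hm : MonotoneOn m (L : Set ℚ))
    (hm' : MonotoneOn m (L' : Set ℚ)) (hx : ∀ a ∈ L, m a ∈ x.labs)
    (hy : ∀ a ∈ L', m a ∈ y.labs) :
    pull x L hL m hm hx ≤ pull y L' hL' m hm' hy := by
  obtain ⟨ε, hε, hg⟩ := hxy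
  have hex : ∀ i : Fin (L.card - 1 + 1), ∃ j : Fin (L'.card - 1 + 1),
      L'.orderEmbOfFin (card_pred_add_one hL') j = L.orderEmbOfFin (card_pred_add_one hL) i := by
    intro i
    have hi : L.orderEmbOfFin (card_pred_add_one hL) i ∈ (L' : Set ℚ) :=
      hLL (L.orderEmbOfFin_mem _ i)
    rwa [← Finset.range_orderEmbOfFin L' (card_pred_add_one hL')] at hi
  choose d hd using hex
  have hdm : Monotone d := fun i j hij =>
    (L'.orderEmbOfFin (card_pred_add_one hL')).le_iff_le.1 (by
      rw [hd i, hd j]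
      exact (L.orderEmbOfFin (card_pred_add_one hL)).monotone hij)
  refine ⟨⟨d, hdm⟩, funext fun i => hd i, ?_⟩
  have hdi : Function.Injective d := fun i j hij =>
    (L.orderEmbOfFin (card_pred_add_one hL)).injective (by rw [← hd i, ← hd j, hij])
  show S.op ⟨d, hdm⟩ (S.op (pullOp y L' hL' m hm' hy) y.g) = S.op (pullOp x L hL m hm hx) x.g
  rw [S.op_face_op _ _ _ hdi, ← hg, S.op_op_face _ _ _ (op_injective hε)]
  congr 1
  refine OrderHom.ext _ _ (funext fun i => y.strictMono.injective ?_)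
  show y.lab (pullOp y L' hL' m hm' hy (d i)) = y.lab (ε (pullOp x L hL m hm hx i))
  rw [lab_pullOp, hd i, show y.lab (ε (pullOp x L hL m hm hx i)) = _ from
    congrFun hε (pullOp x L hL m hm hx i), lab_pullOp]

theorem pull_congr (m' : ℚ → ℚ) (hm'' : MonotoneOn m' (L : Set ℚ))
    (hy'' : ∀ a ∈ L, m' a ∈ y.labs) (h : ∀ a ∈ L, m a = m' a) :
    pull y L hL m hm hy = pull y L hL m' hm'' hy'' := by
  refine pull_eq_mk y L hL m hm hy _ _ (range_pull y L hL m' hm'' hy'') _ fun i => ?_
  exact (lab_pullOp y L hL m' hm'' hy'' i).trans (h _ (L.orderEmbOfFin_mem _ i)).symm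

end SimpSys.Vert

end

end Vale.Agent.P259
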