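import Vale.Agent.P259.Real.Extend
import Vale.Agent.P259.Top.PairBall

/-!
# P259, realisation: filling systems have weakly contractible realisations
-/

namespace Vale.Agent.P259

open P259.Complex
open P259.Complex.Real (mapO)
open scoped unitInterval Classical Topology
open Set Metric

noncomputable section

/-- The solid simplex in coordinates. -/
def solidSimplex (k : ℕ) : Set (EuclideanSpace ℝ (Fin k)) :=
  (PiLp.homeomorph 2 fun _ : Fin k => ℝ) ⁻¹' {x | (∀ i, 0 ≤ x i) ∧ ∑ i, x i ≤ 1}

theorem interior_solidSimplex (k : ℕ) :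
    interior (solidSimplex k) =
      (PiLp.homeomorph 2 fun _ : Fin k => ℝ) ⁻¹' {x | (∀ i, 0 < x i) ∧ ∑ i, x i < 1} := by
  rw [solidSimplex, ← (PiLp.homeomorph 2 fun _ : Fin k => ℝ).preimage_interior]
  congr 1
  refine subset_antisymm (fun x hx => ?_) ?_
  · obtain ⟨r, hr, hball⟩ := Metric.mem_nhds_iff.1 (mem_interior_iff_mem_nhds.1 hx)
    have hmove : ∀ (i : Fin k) (t : ℝ), |t| < r →
        Function.update x i (x i + t) ∈
          ({x | (∀ i, 0 ≤ x i) ∧ ∑ i, x i ≤ 1} : Set (Fin k → ℝ)) := fun i t ht => hball (by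
      rw [mem_ball, dist_pi_lt_iff hr]
      intro j
      by_cases h : j = i
      · subst h
        simpa [Real.dist_eq] using ht
      · simpa [Function.update_of_ne h] using hr)
    have h2 : |(r / 2)| < r := by rw [abs_of_pos (by linarith)]; linarith
    refine ⟨fun i => ?_, ?_⟩
    · have h := (hmove i (-(r / 2)) (by rwa [abs_neg])).1 i
      rw [Function.update_self] at h
      linarith
    · have hx' : x ∈ ({x | (∀ i, 0 ≤ x i) ∧ ∑ i, x i ≤ 1} : Set (Fin k → ℝ)) :=
        interior_subset hx
      rcases hx'.2.lt_or_eq with h | h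
      · exact h
      · have hk : Nonempty (Fin k) := by
          by_contra hk
          have : IsEmpty (Fin k) := not_nonempty_iff.1 hk
          simp at h
        obtain ⟨i⟩ := hk
        have h' := (hmove i (r / 2) h2).2
        rw [Finset.sum_update_of_mem (Finset.mem_univ i)] at h'
        rw [← Finset.add_sum_erase _ _ (Finset.mem_univ i), Finset.sdiff_singleton_eq_erase] at *
        linarith
  · refine interior_maximal (fun x hx => ⟨fun i => (hx.1 i).le, hx.2.le⟩) ?_
    refine IsOpen.inter ?_ (isOpen_lt (continuous_finsetSum _ fun i _ => continuous_apply i)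
      continuous_const)
    show IsOpen {x : Fin k → ℝ | ∀ i, 0 < x i}
    rw [ofPred_forall]
    exact isOpen_iInter_of_finite fun i => isOpen_lt continuous_const (continuous_apply i)

/-- The standard simplex is the ball, its proper faces the sphere. -/
theorem exists_ball_simplex (k : ℕ) :
    ∃ e : Ball k ≃ₜ P259.Complex.Real (Cx.full (Fin (k + 1))),
      ∀ v, e v ∈ (Faces.proper k).space ↔ v ∈ rim k := by
  set P := PiLp.homeomorph 2 fun _ : Fin k => ℝ
  have hcl : IsClosed (solidSimplex k) := by
    refine IsClosed.preimage P.continuous (IsClosed.inter ?_ (isClosed_le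
      (continuous_finsetSum _ fun i _ => continuous_apply i) continuous_const))
    show IsClosed {x : Fin k → ℝ | ∀ i, 0 ≤ x i}
    rw [ofPred_forall]
    exact isClosed_iInter fun i => isClosed_le continuous_const (continuous_apply i)
  have hconv : Convex ℝ (solidSimplex k) := by
    have h0 : Convex ℝ ({x | (∀ i, 0 ≤ x i) ∧ ∑ i, x i ≤ 1} : Set (Fin k → ℝ)) := by
      intro x hx y hy a b ha hb hab
      refine ⟨fun i => add_nonneg (mul_nonneg ha (hx.1 i)) (mul_nonneg hb (hy.1 i)), ?_⟩
      simp only [Pi.add_apply, Pi.smul_apply, smul_eq_mul, Finset.sum_add_distrib,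
        ← Finset.mul_sum]
      nlinarith [hx.2, hy.2]
    exact h0.linear_preimage (WithLp.linearEquiv 2 ℝ (Fin k → ℝ)).toLinearMap
  have hne : (interior (solidSimplex k)).Nonempty := by
    refine ⟨P.symm fun _ => 1 / ((k : ℝ) + 1), ?_⟩
    rw [interior_solidSimplex, mem_preimage, P.apply_symm_apply]
    refine ⟨fun i => by positivity, ?_⟩
    rw [Finset.sum_const, Finset.card_univ, Fintype.card_fin, nsmul_eq_mul, mul_one_div,
      div_lt_one (by positivity)]
    linarith
  have hbdd : Bornology.IsBounded (solidSimplex k) := by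
    refine (P.isCompact_preimage.2 ((isCompact_univ_pi fun _ : Fin k =>
      isCompact_Icc (a := (0 : ℝ)) (b := 1)))).isBounded.subset ?_
    intro x hx
    exact fun i _ => ⟨hx.1 i,
      le_trans (Finset.single_le_sum (fun j _ => hx.1 j) (Finset.mem_univ i)) hx.2⟩
  obtain ⟨h, -, hclo, hfr⟩ :=
    exists_homeomorph_image_interior_closure_frontier_eq_unitBall hconv hne hbdd
  rw [hcl.closure_eq] at hclo
  let g : P259.Complex.Real (Cx.full (Fin (k + 1))) → EuclideanSpace ℝ (Fin k) :=
    fun p => P.symm fun i => p.w i.succ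
  have hsum : ∀ p : P259.Complex.Real (Cx.full (Fin (k + 1))),
      ∑ i : Fin k, p.w i.succ = 1 - p.w 0 := fun p => by
    have h := p.sum_eq_one (Finset.subset_univ _)
    rw [Fin.sum_univ_succ] at h
    linarith
  have hg : ∀ p, g p ∈ solidSimplex k := fun p => by
    refine ⟨fun i => ?_, ?_⟩
    · show 0 ≤ P (P.symm _) i
      rw [P.apply_symm_apply]
      exact p.nonneg _
    · show ∑ i, P (P.symm _) i ≤ 1
      rw [P.apply_symm_apply, hsum]
      linarith [p.nonneg 0]
  let F : P259.Complex.Real (Cx.full (Fin (k + 1))) → P259.Top.Disc k :=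
    fun p => ⟨h (g p), hclo ▸ ⟨g p, hg p, rfl⟩⟩
  have hFb : Function.Bijective F := by
    constructor
    · intro p q hpq
      have h2 := congrFun (P.symm.injective (h.injective (congrArg Subtype.val hpq)))
      refine P259.Complex.Real.ext (Finsupp.ext fun v => ?_)
      induction v using Fin.cases with
      | zero =>
        have e1 := hsum p
        have e2 := hsum q
        simp only [h2] at e1
        linarith
      | succ i => exact h2 i
    · intro v
      obtain ⟨w, hw, hwv⟩ : (v : EuclideanSpace ℝ (Fin k)) ∈ h '' solidSimplex k := by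
        rw [hclo]; exact v.2
      let q : stdSimplex ℝ (Fin (k + 1)) := ⟨Fin.cons (1 - ∑ i, P w i) (P w),
        fun j => by
          induction j using Fin.cases with
          | zero =>
            rw [Fin.cons_zero]
            exact sub_nonneg.2 hw.2
          | succ i => simpa using hw.1 i,
        by simp [Fin.sum_univ_succ]⟩
      refine ⟨(P259.Complex.Real.fullHomeo k).symm q, Subtype.ext ?_⟩
      show h (P.symm fun i => ((P259.Complex.Real.fullHomeo k).symm q).w i.succ) = v
      rw [← hwv, ← P.symm_apply_apply w]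
      congr 2
  have hFc : Continuous F :=
    (h.continuous.comp (P.symm.continuous.comp (continuous_pi fun i =>
      P259.Complex.Real.continuous_coord _))).subtype_mk _
  let eF := hFc.homeoOfEquivCompactToT2 (f := Equiv.ofBijective F hFb)
  refine ⟨(ballDisc k).trans eF.symm, fun v => ?_⟩
  set p := eF.symm (ballDisc k v)
  have hp : F p = ballDisc k v := eF.apply_symm_apply _
  show p ∈ (Faces.proper k).space ↔ _
  rw [← ballDisc_mem_rim, ← hp]
  show p.w.support ≠ Finset.univ ↔ ‖h (g p)‖ = 1
  rw [← mem_sphere_zero_iff_norm, ← hfr, h.injective.mem_set_image, frontier, hcl.closure_eq,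
    mem_sdiff, interior_solidSimplex, and_iff_right (hg p), mem_preimage, P.apply_symm_apply]
  simp only [mem_ofPred_eq, hsum, not_and_or, not_forall, not_lt, ne_eq, Finset.eq_univ_iff_forall,
    Finsupp.mem_support_iff, not_not]
  constructor
  · rintro ⟨j, hj⟩
    induction j using Fin.cases with
    | zero => exact Or.inr (by linarith)
    | succ i => exact Or.inl ⟨i, hj.le⟩
  · rintro (⟨i, hi⟩ | h0)
    · exact ⟨i.succ, le_antisymm hi (p.nonneg _)⟩
    · exact ⟨0, le_antisymm (by linarith) (p.nonneg 0)⟩

/-- In a filling system, every map of the boundary of a simplex extends. -/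
theorem exists_extend_proper {S : SimpSys} (hS : S.Fills) {k : ℕ}
    (w : C((Faces.proper k).space, S.Space)) :
    ∃ F : C(P259.Complex.Real (Cx.full (Fin (k + 1))), S.Space),
      ∀ p : (Faces.proper k).space, F p.1 = w p := by
  let A := Faces.proper k
  obtain ⟨N, φ', hw⟩ := exists_approx_on A w
  let T := Subdivision.iter k (N + 1)
  have : Finite (OCx.chains (A.Sub T)).V := (inferInstance : Finite (A.Sub T))
  obtain ⟨lab₀, hsep⟩ := exists_sep (Q := OCx.chains (A.Sub T)) φ'
  obtain ⟨lab, hl, -, hlab, -⟩ := exists_lab_extend (fun t : T.T => A.mem (T.carrier t))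
    (fun a b hab hb => A.down (T.carrier_mono hab) hb) lab₀ hsep.strictMono hsep.injective ∅
  obtain rfl : lab₀ = lab ∘ A.incl T := funext fun p => (hlab p).symm
  obtain ⟨G, hG⟩ := exists_fill_extend hS (fun t : T.T => A.mem (T.carrier t))
    (gphi (Q := OCx.chains (A.Sub T)) φ')
  let wc : C(P259.Complex.Real (Cx.chains (A.Sub T)), S.Space) := w.comp (A.subMap T)
  let K := toPsi φ' hsep wc hw
  have h0 : ∀ b : A.space,
      K (σ 0, (A.subHomeo T).symm b) = G.real lab hl b.1 := fun b => by
    rw [unitInterval.symm_zero, K.apply_one]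
    show _ = mapO (G.psi lab hl (OCx.carries_chains T.T)) ((subdivHomeo T).symm b.1)
    rw [A.symm_apply]
    exact ((P259.Complex.Real.mapO_comp _ _ _).trans (congrArg
      (fun ψ => mapO ψ ((A.subHomeo T).symm b))
      (Fam.psi_comp_sdEmb G (gphi (Q := OCx.chains (A.Sub T)) φ') (A.incl T) hG lab hl))).symm
  obtain ⟨e, he⟩ := exists_ball_simplex k
  obtain ⟨H, -, hH⟩ := IsBall.hep (B := A.space) ⟨k, e, he⟩ (G.real lab hl)
    ⟨fun p => K (σ p.2, (A.subHomeo T).symm p.1),
      K.continuous.comp ((unitInterval.continuous_symm.comp continuous_snd).prodMk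
        ((A.subHomeo T).symm.continuous.comp continuous_fst))⟩ h0
  refine ⟨H.comp ⟨fun x => (x, 1), by fun_prop⟩, fun p => ?_⟩
  refine (hH p 1).trans ?_
  show K (σ 1, (A.subHomeo T).symm p) = w p
  rw [unitInterval.symm_one, K.apply_zero]
  show w ((A.subHomeo T) ((A.subHomeo T).symm p)) = w p
  rw [Homeomorph.apply_symm_apply]

/-- Systems in which boundaries fill have weakly contractible realisations. -/
theorem realWC : Spec.RealWC := by
  intro S hS k f
  obtain ⟨e, he⟩ := exists_ball_simplex k
  obtain ⟨F, hF⟩ := exists_extend_proper hS (f.comp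
    ⟨fun p : (Faces.proper k).space => (⟨e.symm p.1, (he _).1 (by
        rw [e.apply_symm_apply]; exact p.2)⟩ : rim k),
      (e.symm.continuous.comp continuous_subtype_val).subtype_mk _⟩)
  refine ⟨F.comp (e : C(Ball k, _)), fun v => ?_⟩
  refine (hF ⟨e v.1, (he v.1).2 v.2⟩).trans (congrArg f (Subtype.ext ?_))
  exact e.symm_apply_apply v.1

end

end Vale.Agent.P259
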