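import Vale.Agent.P259.Real.ToPsi
import Vale.Agent.P259.Complex.Approx

/-!
# P259, realisation: every map of a simplex is, as a map of pairs, the map of a family
-/

namespace Vale.Agent.P259

open P259.Complex
open P259.Complex.Real (mapO)
open scoped unitInterval Topology Classical

noncomputable section

/-- A family restricted along an embedding of posets, and its map of vertices. -/
theorem Fam.psi_comp_sdEmb {P P' : Type} [PartialOrder P] [PartialOrder P'] {S : SimpSys}
    (g : Fam (OCx.chains P) S) (g' : Fam (OCx.chains P') S) (e : P' ↪o P)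
    (hg : ∀ {k : ℕ} (v : (OCx.chains P').Simp k),
      g.app ⟨e ∘ v.1, e.strictMono.comp v.2⟩ = g'.app v)
    (lab : P → ℚ) (hl : StrictMono lab) :
    (g.psi lab hl (OCx.carries_chains P)).comp (sdEmb e).toOrderHom =
      g'.psi (lab ∘ e) (hl.comp e.strictMono) (OCx.carries_chains P') := by
  refine OrderHom.ext _ _ (funext fun s => ?_)
  let v := (OCx.carries_chains P').enum s
  let w : (OCx.chains P).Simp _ := ⟨e ∘ v.1, e.strictMono.comp v.2⟩
  have hw : Set.range w.1 = ((sdEmb e s).1 : Set P) := by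
    rw [sdEmb_val]
    exact (Set.range_comp e v.1).trans (congrArg (fun u => e '' u)
      ((OCx.carries_chains P').range_enum s))
  refine (Fam.psi_apply g lab hl (OCx.carries_chains P) (sdEmb e s) w hw).trans ?_
  exact congrArg (fun x => (⟨_, lab ∘ w.1, hl.comp w.2, x⟩ : S.Vert)) (hg v)

/-- Maps of systems commute with the map of vertices of a family. -/
theorem Fam.vert_comp_psi {Q : OCx} {S S' : SimpSys} (g : Fam Q S) (r : S.Hom S') (lab : Q.V → ℚ)
    (hl : StrictMono lab) {J : Cx Q.V} (hJ : Q.Carries J) :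
    r.vert.comp (g.psi lab hl hJ) = (g.map r).psi lab hl hJ :=
  rfl

theorem singleton_mem_chains {P : Type} [PartialOrder P] (a : P) :
    ({a} : Finset P) ∈ (Cx.chains P).simp := by
  rw [Cx.mem_chains, Finset.coe_singleton]; exact IsChain.singleton

/-- A family of faces of the simplex, closed downwards. -/
structure Faces (k : ℕ) : Type where
  mem : Finset (Fin (k + 1)) → Prop
  down : ∀ {s t : Finset (Fin (k + 1))}, t ⊆ s → mem s → mem t

/-- The faces of the boundary. -/
def Faces.proper (k : ℕ) : Faces k where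
  mem s := s ≠ Finset.univ
  down hts hs ht := hs (Finset.univ_subset_iff.1 (ht ▸ hts))

/-- The faces of the horn at a vertex. -/
def Faces.horn (k : ℕ) (j : Fin (k + 1)) : Faces k where
  mem s := ∃ i, i ≠ j ∧ i ∉ s
  down hts := fun ⟨i, hi, his⟩ => ⟨i, hi, fun h => his (hts h)⟩

section Pairs

variable {k : ℕ} (A : Faces k)

/-- The points of the simplex in the chosen faces. -/
abbrev Faces.space : Set (P259.Complex.Real (Cx.full (Fin (k + 1)))) := {p | A.mem p.w.support}

theorem Faces.isCompact_space : IsCompact A.space := by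
  have h : A.space = ⋃ F ∈ {F : Finset (Fin (k + 1)) | A.mem F},
      P259.Complex.Real.within F := by
    ext p
    simp only [Set.mem_iUnion, Set.mem_ofPred_eq, exists_prop, P259.Complex.Real.within]
    exact ⟨fun hp => ⟨_, hp, subset_rfl⟩, fun ⟨F, hF, hp⟩ => A.down hp hF⟩
  rw [h]
  exact (Set.toFinite _).isCompact_biUnion fun F _ => P259.Complex.Real.isCompact_within F

instance : CompactSpace A.space := isCompact_iff_compactSpace.1 A.isCompact_space

/-- The vertices of a subdivision in the chosen faces. -/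
abbrev Faces.Sub (T : Subdivision k) : Type := {t : T.T // A.mem (T.carrier t)}

/-- The inclusion of the vertices in the chosen faces. -/
abbrev Faces.incl (T : Subdivision k) : A.Sub T ↪o T.T := OrderEmbedding.subtype _

/-- The subdivided simplex. -/
def subdivHomeo (T : Subdivision k) :
    P259.Complex.Real (Cx.chains (Cx.chains T.T).Simplex) ≃ₜ
      P259.Complex.Real (Cx.full (Fin (k + 1))) :=
  P259.Complex.Real.baryHomeo.trans T.h

theorem subdivHomeo_apply (T : Subdivision k)
    (z : P259.Complex.Real (Cx.chains (Cx.chains T.T).Simplex)) :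
    subdivHomeo T z = T.h (P259.Complex.Real.bary z) := rfl

theorem Faces.mem_h (T : Subdivision k) (y : P259.Complex.Real (Cx.chains (A.Sub T))) :
    A.mem (T.h (mapO (A.incl T).toOrderHom y)).w.support := by
  rw [T.h_support]
  obtain ⟨t, -, ht⟩ := Finset.mem_image.1 ((P259.Complex.Real.mapO_support (A.incl T).toOrderHom y)
    (Cx.top_mem (mapO (A.incl T).toOrderHom y).mem
      (mapO (A.incl T).toOrderHom y).support_nonempty))
  rw [← ht]
  exact t.2

/-- The subdivided faces mapped to the faces. -/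
def Faces.subMap (T : Subdivision k) :
    C(P259.Complex.Real (Cx.chains (A.Sub T)), A.space) where
  toFun y := ⟨T.h (mapO (A.incl T).toOrderHom y), A.mem_h T y⟩
  continuous_toFun := (T.h.continuous.comp (mapO (A.incl T).toOrderHom).continuous).subtype_mk _

theorem Faces.subMap_bijective (T : Subdivision k) :
    Function.Bijective ((A.subMap T).comp (baryC (A.Sub T))) := by
  constructor
  · intro a b h
    have h1 : mapO (A.incl T).toOrderHom (P259.Complex.Real.bary a) =
        mapO (A.incl T).toOrderHom (P259.Complex.Real.bary b) :=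
      T.h.injective (congrArg Subtype.val h)
    exact P259.Complex.Real.bary_injective (P259.Complex.Real.ext
      (Finsupp.mapDomain_injective (A.incl T).injective (congrArg P259.Complex.Real.w h1)))
  · intro p
    obtain ⟨x, hx⟩ := T.h.surjective p.1
    have hxs : ∀ t ∈ x.w.support, A.mem (T.carrier t) := fun t ht => by
      refine A.down ?_ (show A.mem (T.h x).w.support from hx ▸ p.2)
      exact (T.h_support_subset_iff x _).1 subset_rfl t ht
    have hrange : ∀ t ∈ x.w.support, ∃ q, (A.incl T) q = t := fun t ht => ⟨⟨t, hxs t ht⟩, rfl⟩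
    let y : P259.Complex.Real (Cx.chains (A.Sub T)) :=
      { w := x.w.comapDomain (A.incl T) (A.incl T).injective.injOn
        nonneg := fun q => x.nonneg _
        total := by
          have h : (x.w.comapDomain (A.incl T) (A.incl T).injective.injOn).mapDomain (A.incl T)
              = x.w := Finsupp.mapDomain_comapDomain _ (A.incl T).injective x.w fun t ht =>
            hrange t ht
          have h' := x.total
          rw [← h, Finsupp.sum_mapDomain_index (fun _ => rfl) (fun _ _ _ => rfl)] at h'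
          exact h'
        mem := by
          intro a ha b hb hab
          rw [Finsupp.comapDomain_support] at ha hb
          exact (x.mem (Finset.mem_preimage.1 ha) (Finset.mem_preimage.1 hb)
            fun h => hab ((A.incl T).injective h)).imp (A.incl T).le_iff_le.1
              (A.incl T).le_iff_le.1 }
    obtain ⟨z, hz⟩ := P259.Complex.Real.bary_surjective y
    refine ⟨z, Subtype.ext ?_⟩
    show T.h (mapO (A.incl T).toOrderHom (P259.Complex.Real.bary z)) = p.1
    rw [hz, ← hx]
    congr 1
    exact P259.Complex.Real.ext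
      (Finsupp.mapDomain_comapDomain _ (A.incl T).injective x.w fun t ht => hrange t ht)

/-- The subdivided faces are the faces. -/
def Faces.subHomeo (T : Subdivision k) :
    P259.Complex.Real (Cx.chains (Cx.chains (A.Sub T)).Simplex) ≃ₜ A.space :=
  ((A.subMap T).comp (baryC (A.Sub T))).continuous.homeoOfEquivCompactToT2
    (f := Equiv.ofBijective _ (A.subMap_bijective T))

theorem Faces.subHomeo_apply (T : Subdivision k)
    (z : P259.Complex.Real (Cx.chains (Cx.chains (A.Sub T)).Simplex)) :
    (A.subHomeo T z).1 = subdivHomeo T (mapO (sdEmb (A.incl T)).toOrderHom z) := by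
  rw [subdivHomeo_apply, bary_mapO_sdEmb]
  rfl

theorem Faces.symm_apply (T : Subdivision k) (p : A.space) :
    (subdivHomeo T).symm p.1 = mapO (sdEmb (A.incl T)).toOrderHom ((A.subHomeo T).symm p) := by
  refine (subdivHomeo T).injective ?_
  rw [Homeomorph.apply_symm_apply, ← A.subHomeo_apply, Homeomorph.apply_symm_apply]

variable {S Z : SimpSys} {T : Subdivision k}

/-- The map of the simplex given by a family on a subdivision. -/
def Fam.real (G : Fam (OCx.chains T.T) S) (lab : T.T → ℚ) (hl : StrictMono lab) :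
    C(P259.Complex.Real (Cx.full (Fin (k + 1))), S.Space) :=
  (mapO (G.psi lab hl (OCx.carries_chains T.T))).comp ⟨(subdivHomeo T).symm, (subdivHomeo T).symm.continuous⟩

/-- The map of the chosen faces given by a family on their subdivision. -/
def Fam.realSub (G : Fam (OCx.chains (A.Sub T)) Z) (lab : A.Sub T → ℚ) (hl : StrictMono lab) :
    C(A.space, Z.Space) :=
  (mapO (G.psi lab hl (OCx.carries_chains (A.Sub T)))).comp ⟨(A.subHomeo T).symm, (A.subHomeo T).symm.continuous⟩

/-- A family on the subdivided faces underlying a family on the subdivision. -/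
def Restricts (G : Fam (OCx.chains T.T) S) (G' : Fam (OCx.chains (A.Sub T)) Z) (r : Z.Hom S) :
    Prop :=
  ∀ {j : ℕ} (v : (OCx.chains (A.Sub T)).Simp j),
    G.app ⟨A.incl T ∘ v.1, (A.incl T).strictMono.comp v.2⟩ = (G'.map r).app v

theorem Fam.real_comm (G : Fam (OCx.chains T.T) S) (G' : Fam (OCx.chains (A.Sub T)) Z)
    (r : Z.Hom S) (hG : Restricts A G G' r) (lab : T.T → ℚ) (hl : StrictMono lab)
    (hl' : StrictMono (lab ∘ A.incl T)) (p : A.space) :
    G.real lab hl p.1 = r.space (Fam.realSub A G' (lab ∘ A.incl T) hl' p) := by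
  show mapO _ ((subdivHomeo T).symm p.1) = mapO r.vert (mapO _ ((A.subHomeo T).symm p))
  rw [A.symm_apply]
  have h : (G.psi lab hl (OCx.carries_chains T.T)).comp (sdEmb (A.incl T)).toOrderHom =
      r.vert.comp (G'.psi (lab ∘ A.incl T) hl' (OCx.carries_chains (A.Sub T))) :=
    Fam.psi_comp_sdEmb G (G'.map r) (A.incl T) hG lab hl
  exact (P259.Complex.Real.mapO_comp _ _ _).trans ((congrArg
    (fun φ => mapO φ ((A.subHomeo T).symm p)) h).trans (P259.Complex.Real.mapO_comp _ _ _).symm)

/-- The separation step of approximation, on the chosen faces. -/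
theorem exists_sep_level (f : C(A.space, S.Space)) {δ : ℝ} (hδ : 0 < δ) :
    ∃ N₀, ∀ N, N₀ ≤ N → ∀ x : P259.Complex.Real (Cx.chains (Subdivision.iter k N).T),
      ∀ (hx : A.mem ((Subdivision.iter k N).h x).w.support), ∀ t ∈ x.w.support,
      ∀ (ht : A.mem ((Subdivision.iter k N).point t).w.support) (a : S.Vert),
        δ ≤ (f ⟨_, ht⟩).w a → a ∈ (f ⟨_, hx⟩).w.support := by
  obtain ⟨B, hB⟩ := P259.Complex.Real.exists_within_of_isCompact (isCompact_range f.continuous)
  let D : Set (A.space × A.space) :=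
    ⋃ a ∈ B, {p | δ ≤ (f p.1).w a ∧ (f p.2).w a = 0}
  have hD : IsCompact D := by
    refine (B.finite_toSet.isClosed_biUnion fun a _ => ?_).isCompact
    exact (isClosed_le continuous_const
      ((P259.Complex.Real.continuous_coord a).comp (f.continuous.comp continuous_fst))).inter
      (isClosed_eq ((P259.Complex.Real.continuous_coord a).comp (f.continuous.comp continuous_snd))
        continuous_const)
  let d : A.space × A.space → ℝ := fun p => ∑ v, |p.1.1.w v - p.2.1.w v|
  have hd : Continuous d := continuous_finsetSum _ fun v _ =>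
    (((P259.Complex.Real.continuous_coord v).comp (continuous_subtype_val.comp continuous_fst)).sub
      ((P259.Complex.Real.continuous_coord v).comp
        (continuous_subtype_val.comp continuous_snd))).abs
  obtain ⟨η, hη, hsep⟩ : ∃ η > (0 : ℝ), ∀ p ∈ D, η ≤ d p := by
    by_cases hne : D.Nonempty
    · obtain ⟨p, hp, hmin⟩ := hD.exists_isMinOn hne hd.continuousOn
      refine ⟨d p, ?_, fun q hq => hmin hq⟩
      refine lt_of_le_of_ne (Finset.sum_nonneg fun v _ => abs_nonneg _) fun h => ?_
      have heq : p.1 = p.2 := Subtype.ext (P259.Complex.Real.ext (Finsupp.ext fun v => by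
        have := (Finset.sum_eq_zero_iff_of_nonneg
          (fun v _ => abs_nonneg (p.1.1.w v - p.2.1.w v))).1 h.symm v (Finset.mem_univ v)
        exact sub_eq_zero.1 (abs_eq_zero.1 this)))
      simp only [D, Set.mem_iUnion] at hp
      obtain ⟨a, -, ha1, ha2⟩ := hp
      rw [heq, ha2] at ha1
      exact absurd ha1 (not_le.2 hδ)
    · exact ⟨1, one_pos, fun q hq => absurd ⟨q, hq⟩ hne⟩
  have hlim : Filter.Tendsto (fun N => (k + 1 : ℝ) * ((k : ℝ) / (k + 1)) ^ N) Filter.atTop
      (𝓝 0) := by
    rw [← mul_zero ((k : ℝ) + 1)]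
    refine (tendsto_pow_atTop_nhds_zero_of_lt_one (by positivity) ?_).const_mul _
    rw [div_lt_one (by positivity)]
    linarith
  obtain ⟨N₀, hN₀⟩ := Filter.eventually_atTop.1 (hlim.eventually (eventually_lt_nhds hη))
  refine ⟨N₀, fun N hN x hx t ht htA a ha => ?_⟩
  rw [Finsupp.mem_support_iff]
  intro h0
  have hmemD : ((⟨_, htA⟩ : A.space), (⟨_, hx⟩ : A.space)) ∈ D := by
    simp only [D, Set.mem_iUnion]
    exact ⟨a, hB ⟨_, rfl⟩ (Finsupp.mem_support_iff.2 (hδ.trans_le ha).ne'), ha, h0⟩
  have hle : d ((⟨_, htA⟩ : A.space), (⟨_, hx⟩ : A.space))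
      ≤ (k + 1 : ℝ) * ((k : ℝ) / (k + 1)) ^ N := by
    refine (Finset.sum_le_sum fun v _ => ?_).trans_eq (b := ∑ _v : Fin (k + 1),
      ((k : ℝ) / (k + 1)) ^ N) (by simp)
    show |((Subdivision.iter k N).point t).w v - ((Subdivision.iter k N).h x).w v| ≤ _
    rw [Subdivision.point_apply]
    exact (Subdivision.iter k N).abs_pt_sub_h_le (by positivity)
      (Subdivision.meshLE_iter k N) x ht v
  linarith [hsep _ hmemD, hN₀ N hN]

theorem le_space_apply (r : Z.Hom S) (y : Z.Space) (u : Z.Vert) :
    y.w u ≤ (r.space y).w (r.vert u) := by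
  show y.w u ≤ (y.w.mapDomain r.vert) (r.vert u)
  by_cases hu : u ∈ y.w.support
  · rw [Finsupp.mapDomain, Finsupp.sum, Finsupp.finsetSum_apply]
    refine le_trans (le_of_eq (by rw [Finsupp.single_eq_same])) (Finset.single_le_sum
      (f := fun v => (Finsupp.single (r.vert v) (y.w v)) (r.vert u)) (fun v _ => ?_) hu)
    rw [Finsupp.single_apply]
    split
    · exact y.nonneg v
    · exact le_rfl
  · rw [Finsupp.notMem_support_iff.1 hu]
    exact (r.space y).nonneg _

/-- The monotone map of a heavy vertex map on the chosen faces. -/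
theorem exists_sub_approx (w : C(A.space, Z.Space)) (N : ℕ)
    (u : A.Sub (Subdivision.iter k N) → Z.Vert)
    (hu : ∀ (x : P259.Complex.Real (Cx.chains (Subdivision.iter k N).T))
      (hx : A.mem ((Subdivision.iter k N).h x).w.support) (t : A.Sub (Subdivision.iter k N)),
      t.1 ∈ x.w.support → u t ∈ (w ⟨_, hx⟩).w.support) :
    ∃ φ' : A.Sub (Subdivision.iter k (N + 1)) →o Z.Vert,
      (∀ c, ∃ t : A.Sub (Subdivision.iter k N), t.1 ∈ c.1.1 ∧ φ' c = u t) ∧
      (∀ c (t : A.Sub (Subdivision.iter k N)), t.1 ∈ c.1.1 → u t ≤ φ' c) ∧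
      ∀ y, y.w.support.image φ' ⊆ (w (A.subMap _ y)).w.support := by
  let T := Subdivision.iter k N
  have hmem : ∀ c : A.Sub (Subdivision.iter k (N + 1)), ∀ t ∈ c.1.1, A.mem (T.carrier t) :=
    fun c t ht => A.down (T.carrier_mono (Cx.le_top c.1.2.1 c.1.2.2 ht)) c.2
  let L : A.Sub (Subdivision.iter k (N + 1)) → Finset Z.Vert := fun c =>
    c.1.1.attach.image fun t => u ⟨t.1, hmem c t.1 t.2⟩
  have hLne : ∀ c, (L c).Nonempty := fun c =>
    (Finset.attach_nonempty_iff.2 c.1.2.2).image _
  have hLchain : ∀ c, IsChain (· ≤ ·) (L c : Set Z.Vert) := by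
    intro c
    let c' : (Cx.chains T.T).Simplex := c.1
    let x : P259.Complex.Real (Cx.chains T.T) :=
      P259.Complex.Real.bary (P259.Complex.Real.vertex c' (singleton_mem_chains c'))
    have hx : x.w.support = c.1.1 := by
      rw [P259.Complex.Real.bary_support]
      congr 1
      have h := Cx.top_mem
        (P259.Complex.Real.vertex c' (singleton_mem_chains c')).mem
        (P259.Complex.Real.support_nonempty _)
      exact Finset.mem_singleton.1 (Finsupp.support_single_subset h)
    have hxA : A.mem (T.h x).w.support := by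
      rw [T.h_support]
      refine A.down (T.carrier_mono ?_) c.2
      exact Cx.le_top c.1.2.1 c.1.2.2 (hx ▸ Cx.top_mem x.mem x.support_nonempty)
    refine (w ⟨_, hxA⟩).mem.mono ?_
    intro a ha
    obtain ⟨t, -, rfl⟩ := Finset.mem_image.1 (Finset.mem_coe.1 ha)
    exact Finset.mem_coe.2 (hu x hxA _ (hx.symm ▸ t.2))
  have hpick : ∀ c, ∃ t : A.Sub T, t.1 ∈ c.1.1 ∧ Cx.top (hLchain c) (hLne c) = u t := fun c => by
    obtain ⟨t, -, ht⟩ := Finset.mem_image.1 (Cx.top_mem (hLchain c) (hLne c))
    exact ⟨_, t.2, ht.symm⟩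
  have hle : ∀ c (t : A.Sub T), t.1 ∈ c.1.1 → u t ≤ Cx.top (hLchain c) (hLne c) := fun c t ht =>
    Cx.le_top _ _ (Finset.mem_image.2 ⟨⟨t.1, ht⟩, Finset.mem_attach _ _, rfl⟩)
  let φ' : A.Sub (Subdivision.iter k (N + 1)) →o Z.Vert :=
    { toFun := fun c => Cx.top (hLchain c) (hLne c)
      monotone' := fun c d hcd => by
        obtain ⟨t, ht, hte⟩ := hpick c
        show Cx.top (hLchain c) (hLne c) ≤ Cx.top (hLchain d) (hLne d)
        rw [hte]
        exact hle d t (hcd ht) }
  refine ⟨φ', hpick, hle, fun y => ?_⟩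
  intro a ha
  obtain ⟨c, hc, rfl⟩ := Finset.mem_image.1 ha
  obtain ⟨t, ht, hte⟩ := hpick c
  rw [show φ' c = u t from hte]
  refine hu (P259.Complex.Real.bary (mapO (A.incl _).toOrderHom y)) (A.mem_h _ y) _ ?_
  have hc' : c.1 ∈ (mapO (A.incl (Subdivision.iter k (N + 1))).toOrderHom y).w.support := by
    rw [Finsupp.mem_support_iff]
    refine ne_of_eq_of_ne ?_ (Finsupp.mem_support_iff.1 hc)
    exact Finsupp.mapDomain_apply (A.incl _).injective y.w c
  exact P259.Complex.Real.subset_bary_support hc' ht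

/-- Monotone approximation of a map defined on the chosen faces only. -/
theorem exists_approx_on (w : C(A.space, Z.Space)) :
    ∃ (N : ℕ) (φ' : A.Sub (Subdivision.iter k (N + 1)) →o Z.Vert),
      ∀ y, y.w.support.image φ' ⊆ (w (A.subMap _ y)).w.support := by
  obtain ⟨δ, hδ, h⟩ := Subdivision.exists_le_coord w
  obtain ⟨N, hN⟩ := exists_sep_level A w hδ
  have hpt : ∀ t : A.Sub (Subdivision.iter k N),
      A.mem ((Subdivision.iter k N).point t.1).w.support := fun t => by
    rw [Subdivision.point_support]; exact t.2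
  obtain ⟨φ', -, -, h'⟩ := exists_sub_approx A w N (fun t => (h ⟨_, hpt t⟩).choose)
    fun x hx t ht => hN N le_rfl x hx t.1 ht (hpt t) _ (h ⟨_, hpt t⟩).choose_spec
  exact ⟨N, φ', h'⟩

/-- Monotone approximation of a map of pairs. -/
theorem exists_pair_approx (r : Z.Hom S)
    (f : C(P259.Complex.Real (Cx.full (Fin (k + 1))), S.Space)) (w : C(A.space, Z.Space))
    (hfw : ∀ p : A.space, f p.1 = r.space (w p)) :
    ∃ (N : ℕ) (φ : (Subdivision.iter k (N + 1)).T →o S.Vert)
      (φ' : A.Sub (Subdivision.iter k (N + 1)) →o Z.Vert),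
      φ.comp (A.incl _).toOrderHom = r.vert.comp φ' ∧
      (∀ x, x.w.support.image φ ⊆ (f ((Subdivision.iter k (N + 1)).h x)).w.support) ∧
      ∀ y, y.w.support.image φ' ⊆ (w (A.subMap _ y)).w.support := by
  obtain ⟨δ₁, hδ₁, h₁⟩ := Subdivision.exists_le_coord f
  obtain ⟨δ₂, hδ₂, h₂⟩ := Subdivision.exists_le_coord w
  have hδ : 0 < min δ₁ δ₂ := lt_min hδ₁ hδ₂
  obtain ⟨N₁, hN₁⟩ := Subdivision.exists_approx f hδ
  obtain ⟨N₂, hN₂⟩ := exists_sep_level A w hδ
  let N := max N₁ N₂
  let T := Subdivision.iter k N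
  have hpt : ∀ t : A.Sub T, A.mem (T.point t.1).w.support := fun t => by
    rw [T.point_support]; exact t.2
  let u : A.Sub T → Z.Vert := fun t => (h₂ ⟨_, hpt t⟩).choose
  let φ₀ : T.T → S.Vert := fun t =>
    if ht : A.mem (T.carrier t) then r.vert (u ⟨t, ht⟩) else (h₁ (T.point t)).choose
  have hφ₀ : ∀ t, min δ₁ δ₂ ≤ (f (T.point t)).w (φ₀ t) := by
    intro t
    by_cases ht : A.mem (T.carrier t)
    · rw [show φ₀ t = r.vert (u ⟨t, ht⟩) from dif_pos ht, hfw ⟨_, hpt ⟨t, ht⟩⟩]
      exact (min_le_right _ _).trans ((h₂ ⟨_, hpt ⟨t, ht⟩⟩).choose_spec.trans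
        (le_space_apply r _ _))
    · rw [show φ₀ t = (h₁ (T.point t)).choose from dif_neg ht]
      exact (min_le_left _ _).trans (h₁ (T.point t)).choose_spec
  obtain ⟨hsimp, himg⟩ := hN₁ N (le_max_left _ _) φ₀ hφ₀
  have hu : ∀ (x : P259.Complex.Real (Cx.chains T.T)) (hx : A.mem (T.h x).w.support) (t : A.Sub T),
      t.1 ∈ x.w.support → u t ∈ (w ⟨_, hx⟩).w.support := fun x hx t ht =>
    hN₂ N (le_max_right _ _) x hx t.1 ht (hpt t) (u t)
      ((min_le_right _ _).trans (h₂ ⟨_, hpt t⟩).choose_spec)
  let φ : (Subdivision.iter k (N + 1)).T →o S.Vert := Subdivision.monoApprox N φ₀ hsimp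
  obtain ⟨φ', hpick, hle, hw'⟩ := exists_sub_approx A w N u hu
  refine ⟨N, φ, φ', OrderHom.ext _ _ (funext fun c => le_antisymm ?_ ?_), fun x => ?_, hw'⟩
  · obtain ⟨t, ht, hte⟩ := Finset.mem_image.1 (Subdivision.monoApprox_mem N φ₀ hsimp c.1)
    have hA : A.mem (T.carrier t) := A.down (T.carrier_mono (Cx.le_top c.1.2.1 c.1.2.2 ht)) c.2
    show φ c.1 ≤ r.vert (φ' c)
    rw [← hte, show φ₀ t = r.vert (u ⟨t, hA⟩) from dif_pos hA]
    exact r.vert.monotone (hle c ⟨t, hA⟩ ht)
  · obtain ⟨t, ht, hte⟩ := hpick c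
    show r.vert (φ' c) ≤ φ c.1
    rw [hte, ← show φ₀ t.1 = r.vert (u t) from dif_pos t.2]
    exact Cx.le_maxImage φ₀ hsimp c.1 ht
  · intro a ha
    obtain ⟨c, hc, rfl⟩ := Finset.mem_image.1 ha
    refine himg (P259.Complex.Real.bary x) ?_
    exact Finset.image_subset_image (P259.Complex.Real.subset_bary_support hc)
      (Subdivision.monoApprox_mem N φ₀ hsimp c)

/-- Every map of a simplex, with its restriction to some faces given in another system, is
homotopic as a map of pairs to the map of a family on a subdivision. -/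
theorem exists_psi_approx (r : Z.Hom S) (hr : r.IsNat)
    (f : C(P259.Complex.Real (Cx.full (Fin (k + 1))), S.Space)) (w : C(A.space, Z.Space))
    (hfw : ∀ p : A.space, f p.1 = r.space (w p)) :
    ∃ (N : ℕ) (G : Fam (OCx.chains (Subdivision.iter k N).T) S)
      (G' : Fam (OCx.chains (A.Sub (Subdivision.iter k N))) Z)
      (lab : (Subdivision.iter k N).T → ℚ) (hl : StrictMono lab)
      (hl' : StrictMono (lab ∘ A.incl (Subdivision.iter k N))) (hG : Restricts A G G' r),
      Function.Injective lab ∧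
      (PMap.mk f w hfw).Hom (PMap.mk (G.real lab hl) (Fam.realSub A G' (lab ∘ A.incl _) hl')
        (G.real_comm A G' r hG lab hl hl')) := by
  obtain ⟨N, φ, φ', hφ, hf, hw⟩ := exists_pair_approx A r f w hfw
  let T := Subdivision.iter k (N + 1)
  have : Finite (OCx.chains T.T).V := (inferInstance : Finite T.T)
  obtain ⟨lab, hsep⟩ := exists_sep (Q := OCx.chains T.T) φ
  have hsep' : Sep (Q := OCx.chains (A.Sub T)) φ' (lab ∘ A.incl T) :=
    (Sep.vert r).1 (hφ ▸ hsep.comp (Q' := OCx.chains (A.Sub T)) (A.incl T).toOrderHom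
      (A.incl T).injective)
  have hG : Restricts A (gphi (Q := OCx.chains T.T) φ) (gphi (Q := OCx.chains (A.Sub T)) φ') r := by
    intro j v
    refine Eq.trans ?_ ((congrArg (fun g : Fam (OCx.chains (A.Sub T)) S => g.app v)
      ((congrArg (fun ψ : A.Sub T →o S.Vert => gphi (Q := OCx.chains (A.Sub T)) ψ) hφ).trans
        (gphi_map (Q := OCx.chains (A.Sub T)) φ' r hr))))
    exact (gphi_comp (Q := OCx.chains T.T) (Q' := OCx.chains (A.Sub T)) φ
      (A.incl T).toOrderHom v _ fun _ => rfl).symm
  let fc : C(P259.Complex.Real (Cx.chains T.T), S.Space) := f.comp ⟨T.h, T.h.continuous⟩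
  let wc : C(P259.Complex.Real (Cx.chains (A.Sub T)), Z.Space) := w.comp (A.subMap T)
  let F := toPsi φ hsep fc hf
  let F' := toPsi φ' hsep' wc hw
  refine ⟨N + 1, gphi (Q := OCx.chains T.T) φ, gphi (Q := OCx.chains (A.Sub T)) φ', lab,
    hsep.strictMono, hsep'.strictMono, hG, hsep.injective,
    ⟨fun p => F (p.2, (subdivHomeo T).symm p.1),
      F.continuous.comp (continuous_snd.prodMk
        ((subdivHomeo T).symm.continuous.comp continuous_fst))⟩,
    ⟨fun p => F' (p.2, (A.subHomeo T).symm p.1),
      F'.continuous.comp (continuous_snd.prodMk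
        ((A.subHomeo T).symm.continuous.comp continuous_fst))⟩, ?_, ?_, ?_, ?_, ?_⟩
  · intro b t
    show F (t, (subdivHomeo T).symm b.1) = r.space (F' (t, (A.subHomeo T).symm b))
    rw [A.symm_apply]
    exact toPsi_natural r hr (A.incl T) φ φ' hφ hsep hsep' fc wc
      (fun y => hfw (A.subMap T y)) hf hw t _
  · intro x
    show F (0, _) = f x
    rw [F.apply_zero]
    show f (T.h (P259.Complex.Real.bary ((subdivHomeo T).symm x))) = f x
    rw [← subdivHomeo_apply, Homeomorph.apply_symm_apply]
  · intro x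
    exact F.apply_one _
  · intro b
    show F' (0, _) = w b
    rw [F'.apply_zero]
    show w ((A.subHomeo T) ((A.subHomeo T).symm b)) = w b
    rw [Homeomorph.apply_symm_apply]
  · intro b
    exact F'.apply_one _

end Pairs

end

end Vale.Agent.P259
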