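import Vale.Agent.P259.Real.Approx

/-!
# P259, realisation: null boundary families extend to subdivisions; filling families
-/

namespace Vale.Agent.P259

open P259.Complex
open P259.Complex.Real (mapO)
open scoped unitInterval Classical

noncomputable section

variable {S : SimpSys}

section Fill

variable {P : Type} [PartialOrder P]

/-- The chains lying in a lower set or having few vertices. -/
def stageGood (L : P → Prop) (n : ℕ) (s : Set (OCx.chains P).V) : Prop :=
  (∀ p ∈ s, L p) ∨ s.ncard ≤ n

theorem stageGood_down [Finite P] (L : P → Prop) (n : ℕ) (s t : Set (OCx.chains P).V) (hts : t ⊆ s)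
    (hs : stageGood L n s) : stageGood L n t := by
  have : Finite (OCx.chains P).V := (inferInstance : Finite P)
  exact hs.imp (fun h p hp => h p (hts hp)) fun h => (Set.ncard_le_ncard hts).trans h

theorem ncard_range_simp {k : ℕ} (v : (OCx.chains P).Simp k) : (Set.range v.1).ncard = k + 1 := by
  rw [Set.ncard_range_of_injective (show StrictMono v.1 from v.2).injective, Nat.card_fin]

theorem Op.eq_id_of_bijective {k : ℕ} (δ : Op k k) (h : Function.Injective δ) :
    δ = OrderHom.id :=
  OrderHom.ext _ _ (((δ.monotone.strictMono_of_injective h).range_inj strictMono_id).1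
    (by rw [Set.range_id]; exact (Finite.injective_iff_surjective.1 h).range_eq))

/-- In a filling system a family on a lower set of a finite poset extends. -/
theorem exists_fill_extend [Finite P] (hS : S.Fills) (L : P → Prop)
    (g : Fam (OCx.chains {p // L p}) S) :
    ∃ G : Fam (OCx.chains P) S, ∀ {k : ℕ} (v : (OCx.chains {p // L p}).Simp k),
      G.app ⟨Subtype.val ∘ v.1, (Subtype.strictMono_coe L).comp v.2⟩ = g.app v := by
  have : Finite (OCx.chains P).V := (inferInstance : Finite P)
  let R : ℕ → OCx := fun n => (OCx.chains P).sub (stageGood L n) (stageGood_down L n)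
  have key : ∀ n, ∃ G : Fam (R n) S,
      ∀ {k : ℕ} (v : (R n).Simp k) (hv : ∀ i, L (v.1 i)),
        G.app v = g.app ⟨fun i => ⟨v.1 i, hv i⟩, fun a b h => v.2.1 h⟩ := by
    intro n
    induction n with
    | zero =>
      have hall : ∀ {k : ℕ} (v : (R 0).Simp k), ∀ i, L (v.1 i) := fun {k} v i => by
        rcases v.2.2 with h | h
        · exact h _ (Set.mem_range_self i)
        · have h1 := (ncard_range_simp (⟨v.1, v.2.1⟩ : (OCx.chains P).Simp k)).symm.trans_le h
          omega
      exact ⟨⟨fun v => g.app ⟨fun i => ⟨v.1 i, hall v i⟩, fun a b h => v.2.1 h⟩,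
        fun v δ hδ => g.nat _ δ hδ⟩, fun v hv => rfl⟩
    | succ n ih =>
      obtain ⟨G, hG⟩ := ih
      have hsize : ∀ {k : ℕ} (v : (R (n + 1)).Simp k), ¬ stageGood L n (Set.range v.1) →
          k = n := by
        intro k v hv
        have h1 := ncard_range_simp (⟨v.1, v.2.1⟩ : (OCx.chains P).Simp k)
        rcases v.2.2 with h | h
        · exact absurd (Or.inl h) hv
        · have h2 := h1.symm.trans_le h
          have h3 : ¬ k + 1 ≤ n := fun h3 => hv (Or.inr (h1.trans_le h3))
          omega
      have hface : ∀ {k j : ℕ} (vv : Fin (k + 1) → P), StrictMono vv → k = n →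
          ∀ δ : Fin (j + 1) → Fin (k + 1), ¬ Function.Surjective δ →
            stageGood L n (Set.range (vv ∘ δ)) := by
        intro k j vv hvv hk δ hδ
        refine Or.inr ?_
        have hlt : (Set.range δ).ncard < Nat.card (Fin (k + 1)) :=
          (Set.ncard_univ (Fin (k + 1))) ▸ Set.ncard_lt_ncard
            (Set.ssubset_univ_iff.2 fun he => hδ (Set.range_eq_univ.1 he)) (Set.toFinite _)
        rw [Nat.card_fin] at hlt
        show (Set.range (vv ∘ δ) : Set P).ncard ≤ n
        rw [Set.range_comp, Set.ncard_image_of_injective _ hvv.injective]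
        omega
      have hz : ∀ {k : ℕ} (v : (R (n + 1)).Simp k), ¬ stageGood L n (Set.range v.1) →
          ∃ z : S.S k, ∀ {j : ℕ} (δ : Op j k) (hδ : Function.Injective δ),
            ¬ Function.Surjective δ →
            ∀ h : stageGood L n (Set.range (v.1 ∘ δ)),
              S.op δ z = G.app ⟨v.1 ∘ δ, (OCx.chains P).face δ v.2.1 hδ, h⟩ := by
        intro k v hv
        cases k with
        | zero =>
          obtain ⟨z⟩ := hS.1
          exact ⟨z, fun δ _ hsur => absurd
            (fun x => ⟨0, (Fin.fin_one_eq_zero _).trans (Fin.fin_one_eq_zero x).symm⟩) hsur⟩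
        | succ m =>
          let vv : Fin (m + 1 + 1) → P := v.1
          have hvv : StrictMono vv := v.2.1
          have hlow : ∀ {j : ℕ} (u : (OCx.bdry (m + 1)).Simp j),
              stageGood L n (Set.range (vv ∘ u.1)) := fun {j} u =>
            hface vv hvv (hsize v hv) u.1 fun hsur => u.2.2 (Set.range_eq_univ.2 hsur)
          let b : Fam (OCx.bdry (m + 1)) S :=
            { app := fun u => G.app ⟨vv ∘ u.1,
                hvv.comp (show StrictMono u.1 from u.2.1), hlow u⟩
              nat := fun u δ hδ => G.nat _ δ hδ }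
          obtain ⟨z, hz⟩ := hS.2 m b
          refine ⟨z, fun δ hδ hsur h => ?_⟩
          exact hz ⟨δ, δ.monotone.strictMono_of_injective hδ,
            fun he => hsur (Set.range_eq_univ.1 he)⟩
      let app : ∀ {k : ℕ}, (R (n + 1)).Simp k → S.S k := fun {k} v =>
        if h : stageGood L n (Set.range v.1) then G.app ⟨v.1, v.2.1, h⟩ else (hz v h).choose
      have hpos : ∀ {k : ℕ} (v : (R (n + 1)).Simp k) (h : stageGood L n (Set.range v.1)),
          app v = G.app ⟨v.1, v.2.1, h⟩ := fun v h => dif_pos h
      have hneg : ∀ {k : ℕ} (v : (R (n + 1)).Simp k) (h : ¬ stageGood L n (Set.range v.1)),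
          app v = (hz v h).choose := fun v h => dif_neg h
      refine ⟨⟨app, fun {k j} v δ hδ => ?_⟩, fun v hv => ?_⟩
      · by_cases h : stageGood L n (Set.range v.1)
        · rw [hpos v h, hpos (v.face δ hδ)
            (stageGood_down L n _ _ (Set.range_comp_subset_range δ v.1) h)]
          exact G.nat ⟨v.1, v.2.1, h⟩ δ hδ
        · by_cases hsur : Function.Surjective δ
          · obtain rfl : j = k := by
              have := Fintype.card_of_bijective ⟨hδ, hsur⟩
              simp only [Fintype.card_fin] at this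
              omega
            obtain rfl := Op.eq_id_of_bijective δ hδ
            rw [S.op_id]
            rfl
          · have h' : stageGood L n (Set.range (v.1 ∘ δ)) :=
              hface (fun i => v.1 i) v.2.1 (hsize v h) δ hsur
            rw [hneg v h, hpos (v.face δ hδ) h']
            exact (hz v h).choose_spec δ hδ hsur h'
      · have hgood : stageGood L n (Set.range v.1) :=
          Or.inl (by rintro _ ⟨i, rfl⟩; exact hv i)
        exact (hpos v hgood).trans (hG ⟨v.1, v.2.1, hgood⟩ hv)
  obtain ⟨G, hG⟩ := key (Nat.card P)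
  have hall : ∀ {k : ℕ} (v : (OCx.chains P).Simp k),
      stageGood L (Nat.card P) (Set.range v.1) := fun v => Or.inr
    (Set.ncard_univ (OCx.chains P).V ▸ Set.ncard_le_ncard (Set.subset_univ _))
  refine ⟨⟨fun v => G.app ⟨v.1, v.2, hall v⟩, fun v δ hδ => G.nat _ δ hδ⟩, fun v => ?_⟩
  exact (hG ⟨_, (Subtype.strictMono_coe L).comp v.2, hall ⟨_, (Subtype.strictMono_coe L).comp v.2⟩⟩
    fun i => (v.1 i).2).trans rfl

theorem exists_rank (P : Type) [PartialOrder P] [Finite P] :
    ∃ r : P → ℕ, StrictMono r ∧ Function.Injective r := by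
  have := Fintype.ofFinite P
  let : Fintype (LinearExtension P) := Fintype.ofEquiv P (Equiv.refl _)
  let e := monoEquivOfFin (LinearExtension P) rfl
  refine ⟨fun p => (e.symm (toLinearExtension p)).1, fun p q h => ?_, fun p q h => ?_⟩
  · exact e.symm.strictMono (lt_of_le_of_ne (toLinearExtension.monotone h.le) fun he => h.ne he)
  · exact e.symm.injective (Fin.ext h)

/-- Labels on a lower set extend, above all of them and above a given finite set. -/
theorem exists_lab_extend [Finite P] (L : P → Prop) (hL : ∀ a b : P, a ≤ b → L b → L a)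
    (lab₀ : {p // L p} → ℚ) (h₀ : StrictMono lab₀) (hi : Function.Injective lab₀)
    (avoid : Finset ℚ) :
    ∃ lab : P → ℚ, StrictMono lab ∧ Function.Injective lab ∧ (∀ p, lab p.1 = lab₀ p) ∧
      ∀ p, ¬ L p → (∀ a ∈ avoid, a < lab p) ∧ ∀ q, lab₀ q < lab p := by
  have := Fintype.ofFinite P
  obtain ⟨r, hr, hri⟩ := exists_rank P
  obtain ⟨M, hM⟩ := (avoid ∪ Finset.univ.image lab₀).exists_le
  let lab : P → ℚ := fun p => if h : L p then lab₀ ⟨p, h⟩ else M + 1 + r p
  have hlow : ∀ q, lab₀ q ≤ M := fun q =>
    hM _ (Finset.mem_union_right _ (Finset.mem_image_of_mem _ (Finset.mem_univ q)))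
  have hout : ∀ p, ¬ L p → lab p = M + 1 + r p := fun p hp => dif_neg hp
  have hin : ∀ (p) (h : L p), lab p = lab₀ ⟨p, h⟩ := fun p hp => dif_pos hp
  have habove : ∀ p, ¬ L p → M < lab p := fun p hp => by
    rw [hout p hp]
    have : (0 : ℚ) ≤ r p := Nat.cast_nonneg _
    linarith
  refine ⟨lab, fun p q h => ?_, fun p q h => ?_, fun p => hin p.1 p.2,
    fun p hp => ⟨fun a ha => (hM a (Finset.mem_union_left _ ha)).trans_lt (habove p hp),
      fun q => (hlow q).trans_lt (habove p hp)⟩⟩
  · by_cases hq : L q
    · rw [hin p (hL p q h.le hq), hin q hq]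
      exact h₀ h
    · by_cases hp : L p
      · rw [hin p hp]
        exact (hlow _).trans_lt (habove q hq)
      · rw [hout p hp, hout q hq, add_lt_add_iff_left, Nat.cast_lt]
        exact hr h
  · by_cases hp : L p <;> by_cases hq : L q
    · rw [hin p hp, hin q hq] at h
      exact congrArg Subtype.val (hi h)
    · rw [hin p hp] at h
      exact absurd h ((hlow _).trans_lt (habove q hq)).ne
    · rw [hin q hq] at h
      exact absurd h ((hlow _).trans_lt (habove p hp)).ne'
    · rw [hout p hp, hout q hq, add_right_inj, Nat.cast_inj] at h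
      exact hri h

end Fill

section Bdry

variable {k : ℕ}

/-- The proper faces of the simplex, as a complex. -/
def bdCx (k : ℕ) : Cx (OCx.bdry k).V where
  simp := {s : Finset (Fin (k + 1)) | (s : Set (Fin (k + 1))) ≠ Set.univ}
  down := fun hs hts he => hs (Set.univ_subset_iff.1 (he ▸ Finset.coe_subset.2 hts))

theorem carries_bdry (k : ℕ) : (OCx.bdry k).Carries (bdCx k) :=
  fun (s : Finset (Fin (k + 1))) hs hne =>
    have ⟨j, v, hv⟩ := OCx.carries_chains (Fin (k + 1)) s
      (fun a _ b _ _ => le_total a b) hne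
    ⟨j, ⟨v.1, v.2, fun he => hs (hv.symm.trans he)⟩, hv⟩

/-- A vertex of the boundary of a subdivision. -/
abbrev BdT (T : Subdivision k) : Type := (Faces.proper k).Sub T

/-- A face of the boundary as a simplex of the boundary complex. -/
def bdFace : BdT (Subdivision.base k) →o (bdCx k).Simplex where
  toFun t := ⟨t.1.1, fun h => t.2 (Finset.coe_eq_univ.1 h), t.1.2.2⟩
  monotone' _ _ h := h

theorem Faces.subMap_bijective' {k : ℕ} (A : Faces k) (T : Subdivision k) :
    Function.Bijective (A.subMap T) := by
  refine ⟨fun a b h => ?_, fun p => ?_⟩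
  · exact P259.Complex.Real.ext (Finsupp.mapDomain_injective (A.incl T).injective
      (congrArg P259.Complex.Real.w (T.h.injective (congrArg Subtype.val h))))
  · obtain ⟨z, hz⟩ := (A.subMap_bijective T).2 p
    exact ⟨_, hz⟩

/-- The map of the boundary of the simplex given by a boundary family. -/
def Fam.realBdry (b : Fam (OCx.bdry k) S) (lab : Fin (k + 1) → ℚ) (hl : StrictMono lab) :
    C((Faces.proper k).space, S.Space) :=
  (mapO ((b.psi lab hl (carries_bdry k)).comp bdFace)).comp
    ⟨_, (((Faces.proper k).subMap (Subdivision.base k)).continuous.homeoOfEquivCompactToT2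
      (f := Equiv.ofBijective _
        ((Faces.proper k).subMap_bijective' (Subdivision.base k)))).symm.continuous⟩

theorem Fam.realBdry_subMap (b : Fam (OCx.bdry k) S) (lab : Fin (k + 1) → ℚ) (hl : StrictMono lab)
    (y : P259.Complex.Real (Cx.chains (BdT (Subdivision.base k)))) :
    b.realBdry lab hl ((Faces.proper k).subMap (Subdivision.base k) y) =
      mapO ((b.psi lab hl (carries_bdry k)).comp bdFace) y :=
  congrArg (mapO ((b.psi lab hl (carries_bdry k)).comp bdFace))
    ((((Faces.proper k).subMap (Subdivision.base k)).continuous.homeoOfEquivCompactToT2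
      (f := Equiv.ofBijective _
        ((Faces.proper k).subMap_bijective' (Subdivision.base k)))).symm_apply_apply y)

/-- A vertex map landing in the carriers maps boundary chains into boundary simplices. -/
theorem mapsInto_bdry {T : Subdivision k} (l : BdT T →o Fin (k + 1))
    (hlc : ∀ t, l t ∈ T.carrier t.1) : (OCx.chains (BdT T)).MapsInto (OCx.bdry k) l := by
  intro j v
  have hne : (T.carrier (v.1 (Fin.last j)).1).Nonempty := T.carrier_nonempty _
  obtain ⟨n, w, hw⟩ := carries_bdry k (T.carrier (v.1 (Fin.last j)).1)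
    (fun h => (v.1 (Fin.last j)).2 (Finset.coe_eq_univ.1 h)) hne
  refine ⟨n, w, fun i => hw ▸ ?_⟩
  exact T.carrier_mono ((show StrictMono v.1 from v.2).monotone (Fin.le_last i)) (hlc (v.1 i))

/-- Topological half of the extension theorem: a boundary family whose map extends to the simplex
gives a family on a subdivision which restricts to a pullback of it. -/
theorem exists_extend (b : Fam (OCx.bdry k) S) (lab : Fin (k + 1) → ℚ) (hl : StrictMono lab)
    (H : C(P259.Complex.Real (Cx.full (Fin (k + 1))), S.Space))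
    (hH : ∀ p : (Faces.proper k).space, H p.1 = b.realBdry lab hl p) :
    ∃ (N : ℕ) (G : Fam (OCx.chains (Subdivision.iter k N).T) S)
      (l : BdT (Subdivision.iter k N) →o Fin (k + 1))
      (hlc : ∀ t, l t ∈ (Subdivision.iter k N).carrier t.1),
      ∀ {j : ℕ} (v : (OCx.chains (BdT (Subdivision.iter k N))).Simp j),
        G.app ⟨(Faces.proper k).incl _ ∘ v.1, ((Faces.proper k).incl _).strictMono.comp v.2⟩ =
          (b.pull l (mapsInto_bdry l hlc)).app v := by
  obtain ⟨δ, hδ, hh⟩ := Subdivision.exists_le_coord H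
  obtain ⟨N₀, hN₀⟩ := Subdivision.exists_approx H hδ
  let T := Subdivision.iter k N₀
  let φ₀ : T.T → S.Vert := fun t => (hh (T.point t)).choose
  obtain ⟨hsimp, -⟩ := hN₀ N₀ le_rfl φ₀ fun t => (hh (T.point t)).choose_spec
  let T' := Subdivision.iter k (N₀ + 1)
  let φ : T'.T →o S.Vert := Subdivision.monoApprox N₀ φ₀ hsimp
  have hvert : ∀ t : BdT T, ∃ s : (bdCx k).Simplex,
      φ₀ t.1 = b.psi lab hl (carries_bdry k) s ∧ (s.1 : Finset (Fin (k + 1))) ⊆ T.carrier t.1 := by
    intro t
    have hp : (Faces.proper k).mem (T.point t.1).w.support := by rw [T.point_support]; exact t.2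
    obtain ⟨y, hy⟩ := ((Faces.proper k).subMap_bijective' (Subdivision.base k)).2 ⟨_, hp⟩
    have hmem : φ₀ t.1 ∈ (H (T.point t.1)).w.support :=
      Finsupp.mem_support_iff.2 (hδ.trans_le (hh (T.point t.1)).choose_spec).ne'
    have e := (hH ⟨_, hp⟩).trans ((congrArg (b.realBdry lab hl) hy.symm).trans
      (b.realBdry_subMap lab hl y))
    rw [e] at hmem
    obtain ⟨s, hs, hse⟩ := Finset.mem_image.1 (P259.Complex.Real.mapO_support _ _ hmem)
    refine ⟨bdFace s, hse.symm, ?_⟩
    rw [← T.point_support]
    refine ((Subdivision.base k).h_support_subset_iff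
      (mapO ((Faces.proper k).incl _).toOrderHom y) (T.point t.1).w.support).1 ?_ s.1 ?_
    · exact (congrArg (fun p : (Faces.proper k).space => p.1.w.support) hy).subset
    · rw [Finsupp.mem_support_iff]
      refine ne_of_eq_of_ne ?_ (Finsupp.mem_support_iff.1 hs)
      exact Finsupp.mapDomain_apply ((Faces.proper k).incl _).injective y.w s
  have hbeta : ∀ c : BdT T', ∃ s : (bdCx k).Simplex,
      φ c.1 = b.psi lab hl (carries_bdry k) s ∧ (s.1 : Finset (Fin (k + 1))) ⊆ T'.carrier c.1 := by
    intro c
    obtain ⟨t, ht, hte⟩ := Finset.mem_image.1 (Subdivision.monoApprox_mem N₀ φ₀ hsimp c.1)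
    have htc : T.carrier t ⊆ T'.carrier c.1 :=
      T.carrier_mono (Cx.le_top c.1.2.1 c.1.2.2 ht)
    obtain ⟨s, hs, hsub⟩ := hvert ⟨t, (Faces.proper k).down htc c.2⟩
    exact ⟨s, hte.symm.trans hs, hsub.trans htc⟩
  let β : BdT T' →o (bdCx k).Simplex :=
    ⟨fun c => (hbeta c).choose, fun c d hcd => (b.psi_le_iff lab hl hl.injective (carries_bdry k)).1
      (by rw [← (hbeta c).choose_spec.1, ← (hbeta d).choose_spec.1]
          exact φ.monotone hcd)⟩
  let l : BdT T' →o Fin (k + 1) := (carries_bdry k).topV.comp β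
  have hlc : ∀ t, l t ∈ T'.carrier t.1 := fun t =>
    (hbeta t).choose_spec.2 ((carries_bdry k).topV_mem (β t))
  refine ⟨N₀ + 1, gphi (Q := OCx.chains T'.T) φ, l, hlc, fun v => ?_⟩
  have hcomp : φ.comp ((Faces.proper k).incl T').toOrderHom =
      (b.psi lab hl (carries_bdry k)).comp β :=
    OrderHom.ext _ _ (funext fun c => (hbeta c).choose_spec.1)
  refine ((gphi_comp (Q := OCx.chains T'.T) (Q' := OCx.chains (BdT T')) φ
    ((Faces.proper k).incl T').toOrderHom v _ fun _ => rfl).symm).trans ?_
  exact congrArg (fun g : Fam (OCx.chains (BdT T')) S => g.app v)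
    ((congrArg (fun ψ : BdT T' →o S.Vert => gphi (Q := OCx.chains (BdT T')) ψ) hcomp).trans
      (gphi_psi (Q' := OCx.chains (BdT T')) b lab hl (carries_bdry k) β (mapsInto_bdry l hlc)))

end Bdry

end

end Vale.Agent.P259
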