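import Vale.Agent.P259.Real.WC

/-!
# P259, realisation: faces under subdivision, boundary families, homotopy extension from a facet
-/

namespace Vale.Agent.P259

open P259.Complex
open P259.Complex.Real (mapO)
open scoped unitInterval Classical

noncomputable section

variable {k : ℕ}

/-- One more subdivision keeps the chosen faces contractible by comparable monotone maps. -/
theorem Faces.zig_sub_next (A : Faces k) (T : Subdivision k) (h : OCx.IsZig (A.Sub T)) :
    OCx.IsZig (A.Sub T.next) := by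
  obtain ⟨q, hq⟩ := h
  let e : (Cx.chains (A.Sub T)).Simplex →o A.Sub T.next :=
    { toFun := fun c => ⟨Cx.sdMap (A.incl T).toOrderHom c, by
        show A.mem (T.carrier (Cx.top _ _))
        obtain ⟨t, -, ht⟩ := Finset.mem_image.1
          (Cx.top_mem (Cx.sdMap (A.incl T).toOrderHom c).2.1 (Cx.sdMap (A.incl T).toOrderHom c).2.2)
        rw [← ht]
        exact t.2⟩
      monotone' := fun _ _ h => (Cx.sdMap (A.incl T).toOrderHom).monotone h }
  have hmem : ∀ d : A.Sub T.next, ∀ t ∈ d.1.1, A.mem (T.carrier t) := fun d t ht =>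
    A.down (T.carrier_mono (Cx.le_top d.1.2.1 d.1.2.2 ht)) d.2
  let e' : A.Sub T.next →o (Cx.chains (A.Sub T)).Simplex :=
    { toFun := fun d => ⟨d.1.1.subtype fun t => A.mem (T.carrier t), by
        intro a ha b hb hab
        exact d.1.2.1 (Finset.mem_subtype.1 ha) (Finset.mem_subtype.1 hb)
          (fun h => hab (Subtype.ext h)), by
        obtain ⟨t, ht⟩ := d.1.2.2
        exact ⟨⟨t, hmem d t ht⟩, Finset.mem_subtype.2 ht⟩⟩
      monotone' := fun _ _ h t ht => Finset.mem_subtype.2 (h (Finset.mem_subtype.1 ht)) }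
  have hid : ∀ d, e (e' d) = d := by
    intro d
    refine Subtype.ext (Subtype.ext (Finset.ext fun t => ?_))
    show t ∈ (Cx.sdMap (A.incl T).toOrderHom (e' d)).1 ↔ _
    rw [Cx.sdMap_val, Finset.mem_image]
    exact ⟨fun ⟨u, hu, hut⟩ => hut ▸ Finset.mem_subtype.1 hu,
      fun ht => ⟨⟨t, hmem d t ht⟩, Finset.mem_subtype.2 ht, rfl⟩⟩
  let c₀ : (Cx.chains (A.Sub T)).Simplex := ⟨{q}, singleton_mem_chains q, Finset.singleton_nonempty q⟩
  refine ⟨e c₀, ?_⟩
  have key := ((Cx.Zig.sd (show Cx.Zig _ _ from hq)).comp_left e).comp_right e'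
  have h₁ : (e.comp (Cx.sdMap OrderHom.id)).comp e' = OrderHom.id :=
    OrderHom.ext _ _ (funext fun d => by simpa [Cx.sdMap_id] using hid d)
  have h₂ : (e.comp (Cx.sdMap (OrderHom.const _ q))).comp e' = OrderHom.const _ (e c₀) := by
    refine OrderHom.ext _ _ (funext fun d => congrArg e (Subtype.ext ?_))
    rw [Cx.sdMap_val]
    refine Finset.ext fun x => ?_
    simp only [Finset.mem_image, c₀, Finset.mem_singleton, OrderHom.const_coe_coe,
      Function.const_apply]
    exact ⟨fun ⟨_, _, h⟩ => h.symm, fun h => ⟨(e' d).2.2.choose, (e' d).2.2.choose_spec, h.symm⟩⟩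
  rw [h₁, h₂] at key
  exact key

/-- Chosen faces which are contractible in the first subdivision stay so in all. -/
theorem Faces.zig_sub (A : Faces k) (h : OCx.IsZig (A.Sub (Subdivision.iter k 0))) :
    ∀ N, OCx.IsZig (A.Sub (Subdivision.iter k N))
  | 0 => h
  | N + 1 => A.zig_sub_next (Subdivision.iter k N) (A.zig_sub h N)

variable {S : SimpSys}

/-- The map of a boundary family at a point depends only on the faces of the point. -/
theorem Fam.realBdry_congr (b b' : Fam (OCx.bdry k) S) (lab : Fin (k + 1) → ℚ) (hl : StrictMono lab)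
    (p : (Faces.proper k).space)
    (h : ∀ {j : ℕ} (v : (OCx.bdry k).Simp j), (∀ i, v.1 i ∈ p.1.w.support) →
      b.app v = b'.app v) :
    b.realBdry lab hl p = b'.realBdry lab hl p := by
  obtain ⟨y, rfl⟩ := ((Faces.proper k).subMap_bijective' (Subdivision.base k)).2 p
  rw [Fam.realBdry_subMap, Fam.realBdry_subMap]
  refine P259.Complex.Real.mapO_congr _ _ _ fun t ht => ?_
  show b.psiV lab hl _ = b'.psiV lab hl _
  let v := (carries_bdry k).enum (bdFace t)
  have hv : ∀ i, v.1 i ∈ ((Faces.proper k).subMap (Subdivision.base k) y).1.w.support := fun i => by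
    refine ((Subdivision.base k).h_support_subset_iff
      (mapO ((Faces.proper k).incl _).toOrderHom y) _).1 subset_rfl t.1 ?_ ?_
    · rw [Finsupp.mem_support_iff]
      refine ne_of_eq_of_ne ?_ (Finsupp.mem_support_iff.1 ht)
      exact Finsupp.mapDomain_apply ((Faces.proper k).incl _).injective y.w t
    · have := (carries_bdry k).range_enum (bdFace t)
      have hi : v.1 i ∈ ((bdFace t).1 : Set (OCx.bdry k).V) := this ▸ Set.mem_range_self i
      exact hi
  exact congrArg (fun x => (⟨_, lab ∘ v.1, hl.comp ((OCx.bdry k).strictMono v.2), x⟩ : S.Vert))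
    (h v hv)

/-- Maps of systems commute with the map of a boundary family. -/
theorem Fam.realBdry_map {S' : SimpSys} (b : Fam (OCx.bdry k) S) (r : S.Hom S')
    (lab : Fin (k + 1) → ℚ) (hl : StrictMono lab) (p : (Faces.proper k).space) :
    (b.map r).realBdry lab hl p = r.space (b.realBdry lab hl p) := by
  obtain ⟨y, rfl⟩ := ((Faces.proper k).subMap_bijective' (Subdivision.base k)).2 p
  rw [Fam.realBdry_subMap, Fam.realBdry_subMap]
  exact (P259.Complex.Real.mapO_comp ((b.psi lab hl (carries_bdry k)).comp bdFace) r.vert y).symm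

/-- A map of the boundary which agrees on the horn at the first vertex with an extendable one,
and is homotopic to it on the facet relative to its boundary, extends. -/
theorem exists_extend_of_facet {W : Type} [TopologicalSpace W]
    (f₀ f₁ : C((Faces.proper (k + 1)).space, W))
    (H : C({p : (Faces.proper (k + 1)).space // p.1.w 0 = 0} × I, W))
    (hhorn : ∀ p : (Faces.proper (k + 1)).space, (∃ i, i ≠ 0 ∧ p.1.w i = 0) → f₀ p = f₁ p)
    (H0 : ∀ p, H (p, 0) = f₁ p.1) (H1 : ∀ p, H (p, 1) = f₀ p.1)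
    (Hrel : ∀ p : {p : (Faces.proper (k + 1)).space // p.1.w 0 = 0},
      (∃ i, i ≠ 0 ∧ p.1.1.w i = 0) → ∀ t, H (p, t) = f₁ p.1)
    (F₁ : C(P259.Complex.Real (Cx.full (Fin (k + 2))), W))
    (hF₁ : ∀ p : (Faces.proper (k + 1)).space, F₁ p.1 = f₁ p) :
    ∃ F₀ : C(P259.Complex.Real (Cx.full (Fin (k + 2))), W),
      ∀ p : (Faces.proper (k + 1)).space, F₀ p.1 = f₀ p := by
  let A : Bool → Set ((Faces.proper (k + 1)).space × I) := fun e =>
    if e then {q | q.1.1.w 0 = 0} else {q | ∃ i, i ≠ 0 ∧ q.1.1.w i = 0}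
  have hcoord : ∀ i : Fin (k + 2),
      Continuous fun q : (Faces.proper (k + 1)).space × I => q.1.1.w i := fun i =>
    (P259.Complex.Real.continuous_coord i).comp (continuous_subtype_val.comp continuous_fst)
  have hA : ∀ e, IsClosed (A e) := by
    rintro (_ | _)
    · have h : A false = ⋃ i ∈ ({i | i ≠ 0} : Set (Fin (k + 2))), {q | q.1.1.w i = 0} := by
        ext q
        simp [A]
      rw [h]
      exact (Set.toFinite _).isClosed_biUnion fun i _ => isClosed_eq (hcoord i) continuous_const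
    · exact isClosed_eq (hcoord 0) continuous_const
  have hcov : ∀ q, ∃ e, q ∈ A e := fun q => by
    obtain ⟨i, hi⟩ : ∃ i, q.1.1.w i = 0 := by
      by_contra hne
      exact q.1.2 (Finset.eq_univ_iff_forall.2 fun i =>
        Finsupp.mem_support_iff.2 fun h => hne ⟨i, h⟩)
    by_cases h0 : i = 0
    · exact ⟨true, show q.1.1.w 0 = 0 from h0 ▸ hi⟩
    · exact ⟨false, show ∃ j, j ≠ 0 ∧ q.1.1.w j = 0 from ⟨i, h0, hi⟩⟩
  let g : ∀ e, C(A e, W) := fun e => match e with
    | true => H.comp ⟨fun q => (⟨q.1.1, q.2⟩, q.1.2), by fun_prop⟩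
    | false => f₁.comp ⟨fun q => q.1.1, by fun_prop⟩
  obtain ⟨h, hh⟩ := exists_glue_closed hA hcov g (fun e e' q hi hj => by
    cases e <;> cases e'
    · rfl
    · exact (Hrel ⟨q.1, hj⟩ hi q.2).symm
    · exact Hrel ⟨q.1, hi⟩ hj q.2
    · rfl)
  obtain ⟨e, he⟩ := exists_ball_simplex (k + 1)
  have h0 : ∀ p, h (p, 0) = F₁ p.1 := fun p => by
    obtain ⟨c, hc⟩ := hcov (p, (0 : I))
    rw [hF₁]
    refine (hh c ⟨_, hc⟩).trans ?_
    cases c
    · rfl
    · exact H0 ⟨p, hc⟩
  obtain ⟨F, -, hF⟩ := IsBall.hep (B := (Faces.proper (k + 1)).space) ⟨k + 1, e, he⟩ F₁ h h0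
  refine ⟨F.comp ⟨fun x => (x, 1), by fun_prop⟩, fun p => ?_⟩
  refine (hF p 1).trans ?_
  obtain ⟨c, hc⟩ := hcov (p, (1 : I))
  refine (hh c ⟨_, hc⟩).trans ?_
  cases c
  · exact (hhorn p hc).symm
  · exact H1 ⟨p, hc⟩

end

end Vale.Agent.P259
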