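import Vale.Agent.P259.Real.Vert
import Vale.Agent.P259.Complex.Sd

/-!
# P259, realisation: the map of vertices given by a labelled family, pullback of families
-/

namespace Vale.Agent.P259

open P259.Complex

noncomputable section

/-- Comparable enumerations: a strictly monotone map reflects the order of the indices. -/
theorem monotone_of_strictMono_comp {P : Type*} [Preorder P] {k j : ℕ} {w : Fin (j + 1) → P}
    (hw : StrictMono w) {u : Fin (k + 1) → P} (hu : Monotone u) {a : Fin (k + 1) → Fin (j + 1)}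
    (ha : ∀ i, w (a i) = u i) : Monotone a := by
  intro i i' hi
  rw [← hw.le_iff_le, ha, ha]
  exact hu hi

/-- A finite chain has a strictly monotone enumeration. -/
theorem exists_enum {P : Type} [PartialOrder P] :
    ∀ (n : ℕ) (s : Finset P), IsChain (· ≤ ·) (s : Set P) → s.card = n + 1 →
      ∃ v : Fin (n + 1) → P, StrictMono v ∧ Set.range v = (s : Set P) := by
  classical
  intro n
  induction n with
  | zero =>
    intro s _ hs
    obtain ⟨a, rfl⟩ := Finset.card_eq_one.1 hs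
    exact ⟨fun _ => a, fun i j hij => absurd hij (by simp [Fin.fin_one_eq_zero i,
      Fin.fin_one_eq_zero j]), by simp⟩
  | succ n ih =>
    intro s hs hcard
    obtain ⟨a, ha, hmax⟩ := Cx.exists_greatest hs (Finset.card_pos.1 (by omega))
    obtain ⟨v, hv, hr⟩ := ih (s.erase a) (hs.mono (by simp)) (by
      rw [Finset.card_erase_of_mem ha, hcard]
      omega)
    have hlt : ∀ i, v i < a := fun i => by
      have hi : v i ∈ (s.erase a : Set P) := hr ▸ Set.mem_range_self i
      simp only [Finset.coe_erase, Set.mem_sdiff, Finset.mem_coe, Set.mem_singleton_iff] at hi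
      exact lt_of_le_of_ne (hmax _ hi.1) hi.2
    refine ⟨Fin.snoc v a, ?_, ?_⟩
    · intro i j hij
      induction j using Fin.lastCases with
      | last =>
        obtain ⟨i', rfl⟩ := Fin.exists_castSucc_eq.2 hij.ne
        simp [hlt]
      | cast j =>
        obtain ⟨i', rfl⟩ := Fin.exists_castSucc_eq.2 (hij.trans (Fin.castSucc_lt_last j)).ne
        simpa using hv (Fin.castSucc_lt_castSucc_iff.1 hij)
    · rw [Fin.range_snoc, hr]
      simp [ha]

/-- The simplices of a complex are vertex sets of simplices of an ordered complex. -/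
def OCx.Carries (Q : OCx) (J : Cx Q.V) : Prop :=
  ∀ s ∈ J.simp, s.Nonempty → ∃ (k : ℕ) (v : Q.Simp k), Set.range v.1 = (s : Set Q.V)

theorem OCx.carries_chains (P : Type) [PartialOrder P] :
    (OCx.chains P).Carries (Cx.chains P) := by
  intro s hs hne
  obtain ⟨v, hv, hr⟩ := exists_enum (s.card - 1) s hs
    (Nat.succ_pred_eq_of_pos (Finset.card_pos.2 hne)).symm
  exact ⟨_, ⟨v, hv⟩, hr⟩

theorem OCx.Carries.sub {Q : OCx} {J : Cx Q.V} (hJ : Q.Carries J) {good : Set Q.V → Prop}
    (hgood : ∀ s t, t ⊆ s → good s → good t)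
    (hJgood : ∀ s ∈ J.simp, s.Nonempty → good (s : Set Q.V)) :
    (Q.sub good hgood).Carries J := by
  intro s hs hne
  obtain ⟨k, v, hv⟩ := hJ s hs hne
  exact ⟨k, ⟨v.1, v.2, hv ▸ hJgood s hs hne⟩, hv⟩

namespace OCx.Carries

variable {Q : OCx} {J : Cx Q.V} (hJ : Q.Carries J)

/-- The dimension of a simplex. -/
def dim (s : J.Simplex) : ℕ := (hJ s.1 s.2.1 s.2.2).choose

/-- The enumeration of a simplex. -/
def enum (s : J.Simplex) : Q.Simp (hJ.dim s) := (hJ s.1 s.2.1 s.2.2).choose_spec.choose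

theorem range_enum (s : J.Simplex) : Set.range (hJ.enum s).1 = (s.1 : Set Q.V) :=
  (hJ s.1 s.2.1 s.2.2).choose_spec.choose_spec

theorem enum_le_last (s : J.Simplex) {p : Q.V} (hp : p ∈ s.1) :
    p ≤ (hJ.enum s).1 (Fin.last _) := by
  have hp' : p ∈ Set.range (hJ.enum s).1 := hJ.range_enum s ▸ hp
  obtain ⟨i, rfl⟩ := hp'
  exact (Q.strictMono (hJ.enum s).2).monotone (Fin.le_last i)

theorem enum_last_mem (s : J.Simplex) : (hJ.enum s).1 (Fin.last _) ∈ s.1 := by
  have h : (hJ.enum s).1 (Fin.last _) ∈ (s.1 : Set Q.V) := hJ.range_enum s ▸ Set.mem_range_self _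
  exact h

/-- The greatest vertex. -/
def topV : J.Simplex →o Q.V where
  toFun s := (hJ.enum s).1 (Fin.last _)
  monotone' s t hst := hJ.enum_le_last t (hst (hJ.enum_last_mem s))

theorem topV_mem (s : J.Simplex) : hJ.topV s ∈ s.1 := hJ.enum_last_mem s

theorem le_topV (s : J.Simplex) {p : Q.V} (hp : p ∈ s.1) : p ≤ hJ.topV s := hJ.enum_le_last s hp

theorem topV_eq (s : J.Simplex) {k : ℕ} (v : Q.Simp k) (hv : Set.range v.1 = (s.1 : Set Q.V)) :
    hJ.topV s = v.1 (Fin.last k) := by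
  refine le_antisymm ?_ (hJ.le_topV s (?_ : v.1 (Fin.last k) ∈ (s.1 : Set Q.V)))
  · have hp' : hJ.topV s ∈ Set.range v.1 := hv ▸ hJ.topV_mem s
    obtain ⟨i, hi⟩ := hp'
    exact hi ▸ (Q.strictMono v.2).monotone (Fin.le_last i)
  · exact hv ▸ Set.mem_range_self _

end OCx.Carries

section Psi

variable {Q : OCx} {S : SimpSys}

/-- A simplex with labelled vertices. -/
def Fam.psiV (g : Fam Q S) (lab : Q.V → ℚ) (hl : StrictMono lab) {k : ℕ} (v : Q.Simp k) :
    S.Vert :=
  ⟨k, lab ∘ v.1, hl.comp (Q.strictMono v.2), g.app v⟩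

theorem Fam.psiV_le (g : Fam Q S) (lab : Q.V → ℚ) (hl : StrictMono lab) {k j : ℕ}
    (v : Q.Simp k) (w : Q.Simp j) (h : Set.range v.1 ⊆ Set.range w.1) :
    g.psiV lab hl v ≤ g.psiV lab hl w := by
  choose d hd using fun i => h (Set.mem_range_self i)
  have hdm : Monotone d :=
    monotone_of_strictMono_comp (Q.strictMono w.2) (Q.strictMono v.2).monotone hd
  have hdi : Function.Injective d := fun i i' hii =>
    (Q.strictMono v.2).injective (by rw [← hd i, ← hd i', hii])
  refine ⟨⟨d, hdm⟩, funext fun i => congrArg lab (hd i), ?_⟩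
  show S.op ⟨d, hdm⟩ (g.app w) = g.app v
  rw [g.nat w ⟨d, hdm⟩ hdi]
  exact congrArg g.app (Subtype.ext (funext hd))

theorem Fam.psiV_eq (g : Fam Q S) (lab : Q.V → ℚ) (hl : StrictMono lab) {k j : ℕ}
    (v : Q.Simp k) (w : Q.Simp j) (h : Set.range v.1 = Set.range w.1) :
    g.psiV lab hl v = g.psiV lab hl w :=
  le_antisymm (g.psiV_le lab hl v w h.le) (g.psiV_le lab hl w v h.ge)

/-- The map of vertices given by a family with labels. -/
def Fam.psi (g : Fam Q S) (lab : Q.V → ℚ) (hl : StrictMono lab) {J : Cx Q.V}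
    (hJ : Q.Carries J) : J.Simplex →o S.Vert where
  toFun s := g.psiV lab hl (hJ.enum s)
  monotone' s t hst := g.psiV_le lab hl _ _ (by
    rw [hJ.range_enum, hJ.range_enum]
    exact Finset.coe_subset.2 hst)

theorem Fam.psi_apply (g : Fam Q S) (lab : Q.V → ℚ) (hl : StrictMono lab) {J : Cx Q.V}
    (hJ : Q.Carries J) (s : J.Simplex) {k : ℕ} (v : Q.Simp k)
    (hv : Set.range v.1 = (s.1 : Set Q.V)) : g.psi lab hl hJ s = g.psiV lab hl v :=
  g.psiV_eq lab hl _ v ((hJ.range_enum s).trans hv.symm)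

theorem Fam.range_lab_psi (g : Fam Q S) (lab : Q.V → ℚ) (hl : StrictMono lab) {J : Cx Q.V}
    (hJ : Q.Carries J) (s : J.Simplex) :
    Set.range (g.psi lab hl hJ s).lab = lab '' (s.1 : Set Q.V) := by
  rw [← hJ.range_enum s, ← Set.range_comp]
  rfl

theorem Fam.maxLab_psi (g : Fam Q S) (lab : Q.V → ℚ) (hl : StrictMono lab) {J : Cx Q.V}
    (hJ : Q.Carries J) (s : J.Simplex) :
    (g.psi lab hl hJ s).maxLab = lab (hJ.topV s) := rfl

theorem Fam.psi_le_iff (g : Fam Q S) (lab : Q.V → ℚ) (hl : StrictMono lab)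
    (hinj : Function.Injective lab) {J : Cx Q.V} (hJ : Q.Carries J) {s t : J.Simplex} :
    g.psi lab hl hJ s ≤ g.psi lab hl hJ t ↔ s ≤ t := by
  refine ⟨fun h p hp => ?_, fun h => (g.psi lab hl hJ).monotone h⟩
  obtain ⟨δ, hδ, -⟩ := h
  have h1 : lab p ∈ Set.range (g.psi lab hl hJ s).lab :=
    (g.range_lab_psi lab hl hJ s).symm ▸ Set.mem_image_of_mem lab hp
  obtain ⟨i, hi⟩ := h1
  have h2 : lab p ∈ lab '' (t.1 : Set Q.V) :=
    g.range_lab_psi lab hl hJ t ▸ ⟨δ i, (congrFun hδ i).trans hi⟩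
  obtain ⟨q, hq, hqp⟩ := h2
  exact hinj hqp ▸ hq

theorem Fam.psi_injective (g : Fam Q S) (lab : Q.V → ℚ) (hl : StrictMono lab)
    (hinj : Function.Injective lab) {J : Cx Q.V} (hJ : Q.Carries J) :
    Function.Injective (g.psi lab hl hJ) := fun _ _ h =>
  le_antisymm ((g.psi_le_iff lab hl hinj hJ).1 h.le) ((g.psi_le_iff lab hl hinj hJ).1 h.ge)

/-- A map of simplex systems compatible with all operators. -/
def SimpSys.Hom.IsNat {S' : SimpSys} (r : S.Hom S') : Prop :=
  ∀ {k j : ℕ} (a : Op j k) (g : S.S k), r.app j (S.op a g) = S'.op a (r.app k g)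

theorem SimpBase.sysMap_isNat {E : Ext} (B : SimpBase E) {X Y : E.Gpd} (f : X ⟶ Y) :
    (B.sysMap f).IsNat :=
  fun _ _ => CategoryTheory.Category.assoc _ _ _

end Psi

section Pull

variable {Q Q' : OCx} {S : SimpSys}

/-- Two readings of a degenerate simplex of a family agree. -/
theorem Fam.op_app_eq (g : Fam Q S) {k j j' : ℕ} {w : Q.Simp j} {w' : Q.Simp j'}
    {a : Op k j} {a' : Op k j'} (h : ∀ i, w.1 (a i) = w'.1 (a' i)) :
    S.op a (g.app w) = S.op a' (g.app w') := by
  classical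
  let A : Finset (Fin (j + 1)) := Finset.univ.image a
  have hA : A.card = A.card - 1 + 1 :=
    (Nat.succ_pred_eq_of_pos (Finset.card_pos.2 (Finset.univ_nonempty.image _))).symm
  let δ : Op (A.card - 1) j := (A.orderEmbOfFin hA).toOrderHom
  have hex : ∀ i, ∃ x, δ x = a i := fun i => by
    have hi : a i ∈ (A : Set (Fin (j + 1))) := Finset.mem_coe.2 (Finset.mem_image_of_mem _ (Finset.mem_univ i))
    rwa [← Finset.range_orderEmbOfFin A hA] at hi
  choose c hc using hex
  have hδ : Function.Injective δ := (A.orderEmbOfFin hA).injective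
  let a₀ : Op k (A.card - 1) := ⟨c, fun i i' hi => (A.orderEmbOfFin hA).le_iff_le.1 (by
    show δ (c i) ≤ δ (c i')
    rw [hc, hc]
    exact a.monotone hi)⟩
  have hsur : ∀ x, ∃ i, c i = x := fun x => by
    obtain ⟨i, -, hi⟩ := Finset.mem_image.1 (A.orderEmbOfFin_mem hA x)
    exact ⟨i, hδ ((hc i).trans hi)⟩
  choose sec hsec using hsur
  have hwd : ∀ x, w'.1 (a' (sec x)) = w.1 (δ x) := fun x => by
    rw [← h, ← hc, hsec]
  have hwi : Function.Injective (w.1 ∘ δ) := (Q.strictMono w.2).injective.comp hδ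
  let δ' : Op (A.card - 1) j' := ⟨fun x => a' (sec x),
    monotone_of_strictMono_comp (Q.strictMono w'.2)
      ((Q.strictMono w.2).monotone.comp δ.monotone) hwd⟩
  have hδ' : Function.Injective δ' := fun x y hxy =>
    hwi ((hwd x).symm.trans ((congrArg w'.1 hxy).trans (hwd y)))
  have hca : δ.comp a₀ = a := OrderHom.ext _ _ (funext hc)
  have hca' : δ'.comp a₀ = a' := OrderHom.ext _ _ (funext fun i =>
    (Q.strictMono w'.2).injective ((hwd (c i)).trans (by rw [hc, h])))
  have hface : w.face δ hδ = w'.face δ' hδ' := Subtype.ext (funext fun x => (hwd x).symm)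
  rw [← hca, ← hca', ← S.op_op_face _ _ _ hδ, ← S.op_op_face _ _ _ hδ', g.nat w δ hδ,
    g.nat w' δ' hδ', hface]

/-- A monotone map of vertices sends every simplex into a simplex. -/
def OCx.MapsInto (Q' Q : OCx) (b : Q'.V →o Q.V) : Prop :=
  ∀ {k : ℕ} (v : Q'.Simp k), ∃ (j : ℕ) (w : Q.Simp j), ∀ i, b (v.1 i) ∈ Set.range w.1

theorem OCx.mapsInto_chains {P P' : Type} [PartialOrder P] [PartialOrder P'] (b : P' →o P) :
    (OCx.chains P').MapsInto (OCx.chains P) b := by
  classical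
  intro k v
  obtain ⟨j, w, hw⟩ := OCx.carries_chains P (Finset.univ.image (b ∘ v.1)) (by
    show IsChain (· ≤ ·) ((Finset.univ.image (b ∘ v.1) : Finset P) : Set P)
    rw [Finset.coe_image, Finset.coe_univ, Set.image_univ]
    exact (b.monotone.comp (show StrictMono v.1 from v.2).monotone).isChain_range)
    (Finset.univ_nonempty.image _)
  exact ⟨j, w, fun i => hw ▸ Finset.mem_coe.2 (Finset.mem_image_of_mem (b ∘ v.1) (Finset.mem_univ i))⟩

/-- The operator reading a simplex inside a simplex. -/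
def OCx.readOp (b : Q'.V →o Q.V) {k j : ℕ} (v : Q'.Simp k) (w : Q.Simp j)
    (h : ∀ i, b (v.1 i) ∈ Set.range w.1) : Op k j :=
  ⟨fun i => (h i).choose, monotone_of_strictMono_comp (Q.strictMono w.2)
    (b.monotone.comp (Q'.strictMono v.2).monotone) fun i => (h i).choose_spec⟩

theorem OCx.readOp_spec (b : Q'.V →o Q.V) {k j : ℕ} (v : Q'.Simp k) (w : Q.Simp j)
    (h : ∀ i, b (v.1 i) ∈ Set.range w.1) (i : Fin (k + 1)) :
    w.1 (OCx.readOp b v w h i) = b (v.1 i) :=
  (h i).choose_spec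

/-- The pullback of a family along a monotone map of vertices. -/
def Fam.pull (g : Fam Q S) (b : Q'.V →o Q.V) (hb : Q'.MapsInto Q b) : Fam Q' S where
  app v := S.op (OCx.readOp b v _ (hb v).choose_spec.choose_spec)
    (g.app (hb v).choose_spec.choose)
  nat v δ hδ := by
    rw [S.op_face_op δ _ _ hδ]
    refine g.op_app_eq fun i => ?_
    rw [OCx.readOp_spec]
    exact OCx.readOp_spec b v _ (hb v).choose_spec.choose_spec (δ i)

theorem Fam.pull_app (g : Fam Q S) (b : Q'.V →o Q.V) (hb : Q'.MapsInto Q b) {k j : ℕ}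
    (v : Q'.Simp k) (w : Q.Simp j) (a : Op k j) (ha : ∀ i, w.1 (a i) = b (v.1 i)) :
    (g.pull b hb).app v = S.op a (g.app w) :=
  g.op_app_eq fun i => (OCx.readOp_spec b v _ _ i).trans (ha i).symm

theorem Fam.map_pull {S' : SimpSys} (g : Fam Q S) (b : Q'.V →o Q.V) (hb : Q'.MapsInto Q b)
    (r : S.Hom S') (hr : r.IsNat) : (g.pull b hb).map r = (g.map r).pull b hb :=
  Fam.ext (funext fun _ => funext fun _ => hr _ _)

theorem Fam.pull_of_eq_face (g : Fam Q S) (b : Q'.V →o Q.V) (hb : Q'.MapsInto Q b) {k : ℕ}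
    (v : Q'.Simp k) (w : Q.Simp k) (h : ∀ i, w.1 i = b (v.1 i)) :
    (g.pull b hb).app v = g.app w := by
  rw [g.pull_app b hb v w OrderHom.id h, S.op_id]

end Pull

end

end Vale.Agent.P259
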