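import Vale.Agent.P259.Real.Psi
import Vale.Agent.P259.Complex.Prism
import Vale.Agent.P259.Spec

/-!
# P259, realisation: the key lemma

A monotone map into the vertices gives a family, and it lies below a common map with the map of
vertices given by that family and separated labels.
-/

namespace Vale.Agent.P259

open P259.Complex
open P259.Complex.Real (mapO)

noncomputable section

variable {Q : OCx} {S : SimpSys}

section Gphi

variable (φ : Q.V →o S.Vert)

theorem mem_labs_last {k : ℕ} (v : Q.Simp k) (i : Fin (k + 1)) :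
    (φ (v.1 i)).maxLab ∈ (φ (v.1 (Fin.last k))).labs :=
  SimpSys.Vert.labs_subset (φ.monotone ((Q.strictMono v.2).monotone (Fin.le_last i)))
    (SimpSys.Vert.maxLab_mem _)

/-- The operator reading the largest labels. -/
def maxOp {k : ℕ} (v : Q.Simp k) : Op k (φ (v.1 (Fin.last k))).k :=
  ⟨fun i => (φ (v.1 (Fin.last k))).idx _ (mem_labs_last φ v i),
    monotone_of_strictMono_comp (φ (v.1 (Fin.last k))).strictMono
      (u := fun i => (φ (v.1 i)).maxLab)
      (fun _ _ h => SimpSys.Vert.maxLab_mono (φ.monotone ((Q.strictMono v.2).monotone h)))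
      (fun i => SimpSys.Vert.lab_idx _ (mem_labs_last φ v i))⟩

theorem lab_maxOp {k : ℕ} (v : Q.Simp k) (i : Fin (k + 1)) :
    (φ (v.1 (Fin.last k))).lab (maxOp φ v i) = (φ (v.1 i)).maxLab :=
  SimpSys.Vert.lab_idx _ (mem_labs_last φ v i)

/-- The simplex of the family, read in any vertex above. -/
theorem maxOp_app {k : ℕ} (v : Q.Simp k) (z : S.Vert) (hz : φ (v.1 (Fin.last k)) ≤ z)
    (a : Op k z.k) (ha : ∀ i, z.lab (a i) = (φ (v.1 i)).maxLab) :
    S.op (maxOp φ v) (φ (v.1 (Fin.last k))).g = S.op a z.g := by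
  obtain ⟨ε, hε, hg⟩ := hz
  rw [← hg, S.op_op_face _ _ _ (SimpSys.Vert.op_injective hε)]
  congr 1
  refine OrderHom.ext _ _ (funext fun i => z.strictMono.injective ?_)
  show z.lab (ε (maxOp φ v i)) = z.lab (a i)
  rw [ha, show z.lab (ε (maxOp φ v i)) = _ from congrFun hε (maxOp φ v i), lab_maxOp]

/-- The family of a monotone map into the vertices. -/
def gphi : Fam Q S where
  app v := S.op (maxOp φ v) (φ (v.1 (Fin.last _))).g
  nat v δ hδ := by
    rw [S.op_face_op δ _ _ hδ]
    refine (maxOp_app φ (v.face δ hδ) _ (φ.monotone ?_) _ fun i => ?_).symm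
    · exact (Q.strictMono v.2).monotone (Fin.le_last _)
    · exact lab_maxOp φ v (δ i)

theorem gphi_app {k : ℕ} (v : Q.Simp k) (z : S.Vert) (hz : φ (v.1 (Fin.last k)) ≤ z)
    (a : Op k z.k) (ha : ∀ i, z.lab (a i) = (φ (v.1 i)).maxLab) :
    (gphi φ).app v = S.op a z.g :=
  maxOp_app φ v z hz a ha

theorem gphi_map {S' : SimpSys} (r : S.Hom S') (hr : r.IsNat) :
    gphi (r.vert.comp φ) = (gphi φ).map r := by
  refine Fam.ext (funext fun k => funext fun v => ?_)
  show _ = r.app k (S.op (maxOp φ v) _)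
  rw [hr]
  exact gphi_app (r.vert.comp φ) v (r.vert (φ (v.1 (Fin.last k)))) le_rfl (maxOp φ v)
    (fun i => lab_maxOp φ v i)

theorem gphi_comp {Q' : OCx} (e : Q'.V →o Q.V) {k : ℕ} (v : Q'.Simp k) (w : Q.Simp k)
    (h : ∀ i, w.1 i = e (v.1 i)) : (gphi (φ.comp e)).app v = (gphi φ).app w := by
  refine gphi_app (φ.comp e) v (φ (w.1 (Fin.last k))) (le_of_eq ?_) _ fun i => ?_
  · show φ (e (v.1 (Fin.last k))) = _
    rw [h]
  · rw [lab_maxOp, h]
    rfl

end Gphi

/-- The family of a map given by a family with labels is its pullback along the greatest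
vertex. -/
theorem gphi_psi {Q' : OCx} (g : Fam Q S) (lab : Q.V → ℚ) (hl : StrictMono lab) {J : Cx Q.V}
    (hJ : Q.Carries J) (β : Q'.V →o J.Simplex) (hb : Q'.MapsInto Q (hJ.topV.comp β)) :
    gphi ((g.psi lab hl hJ).comp β) = g.pull (hJ.topV.comp β) hb := by
  refine Fam.ext (funext fun k => funext fun v => ?_)
  have hw : ∀ i, hJ.topV (β (v.1 i)) ∈ Set.range (hJ.enum (β (v.1 (Fin.last k)))).1 := fun i => by
    rw [hJ.range_enum]
    exact β.monotone ((Q'.strictMono v.2).monotone (Fin.le_last i)) (hJ.topV_mem _)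
  rw [g.pull_app (hJ.topV.comp β) hb v (hJ.enum (β (v.1 (Fin.last k))))
    (OCx.readOp (hJ.topV.comp β) v _ hw) (OCx.readOp_spec _ v _ hw)]
  exact gphi_app ((g.psi lab hl hJ).comp β) v _ le_rfl (OCx.readOp (hJ.topV.comp β) v _ hw)
    fun i => congrArg lab (OCx.readOp_spec (hJ.topV.comp β) v _ hw i)

/-- Labels separated from a monotone map: just above the largest label, below the next label in
use. -/
structure Sep (φ : Q.V →o S.Vert) (lab : Q.V → ℚ) : Prop where
  strictMono : StrictMono lab
  injective : Function.Injective lab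
  gt : ∀ q, (φ q).maxLab < lab q
  gap : ∀ q q', ∀ a ∈ (φ q').labs, a ≤ (φ q).maxLab ∨ lab q < a

theorem Sep.comp {Q' : OCx} {φ : Q.V →o S.Vert} {lab : Q.V → ℚ} (h : Sep φ lab)
    (e : Q'.V →o Q.V) (he : Function.Injective e) : Sep (φ.comp e) (lab ∘ e) where
  strictMono := h.strictMono.comp (e.monotone.strictMono_of_injective he)
  injective := h.injective.comp he
  gt q := h.gt (e q)
  gap q q' := h.gap (e q) (e q')

theorem Sep.vert {S' : SimpSys} {φ : Q.V →o S.Vert} {lab : Q.V → ℚ} (r : S.Hom S') :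
    Sep (r.vert.comp φ) lab ↔ Sep φ lab :=
  ⟨fun h => ⟨h.strictMono, h.injective, h.gt, h.gap⟩,
    fun h => ⟨h.strictMono, h.injective, h.gt, h.gap⟩⟩

theorem exists_sep [Finite Q.V] (φ : Q.V →o S.Vert) : ∃ lab, Sep φ lab := by
  classical
  have := Fintype.ofFinite Q.V
  let M : Q.V → ℚ := fun q => (φ q).maxLab
  let D : Finset ℚ := insert 1 (((Finset.univ.sigma fun q : Q.V =>
    ((Finset.univ.biUnion fun q' => (φ q').labs).filter fun a => M q < a))).image
      fun p => p.2 - M p.1)
  have hD : D.Nonempty := Finset.insert_nonempty _ _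
  let ε : ℚ := D.min' hD
  have hε : 0 < ε := by
    refine (Finset.lt_min'_iff D hD).2 fun x hx => ?_
    rcases Finset.mem_insert.1 hx with rfl | hx
    · exact one_pos
    · obtain ⟨p, hp, rfl⟩ := Finset.mem_image.1 hx
      exact sub_pos.2 (Finset.mem_filter.1 (Finset.mem_sigma.1 hp).2).2
  have hgap : ∀ q q', ∀ a ∈ (φ q').labs, M q < a → ε ≤ a - M q := fun q q' a ha hlt =>
    D.min'_le _ (Finset.mem_insert_of_mem (Finset.mem_image.2 ⟨⟨q, a⟩, Finset.mem_sigma.2
      ⟨Finset.mem_univ q, Finset.mem_filter.2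
        ⟨Finset.mem_biUnion.2 ⟨q', Finset.mem_univ q', ha⟩, hlt⟩⟩, rfl⟩))
  have : Fintype (LinearExtension Q.V) := Fintype.ofEquiv Q.V (Equiv.refl _)
  let r : Q.V → ℚ := fun q =>
    (((Finset.univ : Finset (LinearExtension Q.V)).filter
      fun p => p < toLinearExtension q).card + 1 : ℚ) / (Fintype.card (LinearExtension Q.V) + 1)
  have hr : ∀ q, 0 < r q ∧ r q < 1 := by
    intro q
    refine ⟨by positivity, (div_lt_one (by positivity)).2 ?_⟩
    have h : ((Finset.univ : Finset (LinearExtension Q.V)).filter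
        fun p => p < toLinearExtension q).card < Fintype.card (LinearExtension Q.V) :=
      Finset.card_lt_card (Finset.filter_ssubset.2
        ⟨toLinearExtension q, Finset.mem_univ _, lt_irrefl _⟩)
    have h' : ((((Finset.univ : Finset (LinearExtension Q.V)).filter
        fun p => p < toLinearExtension q).card : ℚ)) < Fintype.card (LinearExtension Q.V) := by
      exact_mod_cast h
    linarith
  have hrlt : ∀ q q', toLinearExtension q < toLinearExtension q' → r q < r q' := by
    intro q q' h
    refine div_lt_div_of_pos_right (add_lt_add_left ?_ 1) (by positivity)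
    refine Nat.cast_lt.2 ?_
    exact Finset.card_lt_card ((Finset.ssubset_iff_of_subset fun p hp =>
      Finset.mem_filter.2 ⟨Finset.mem_univ p, lt_trans (Finset.mem_filter.1 hp).2 h⟩).2
        ⟨toLinearExtension q, Finset.mem_filter.2 ⟨Finset.mem_univ _, h⟩,
          fun hp => lt_irrefl _ (Finset.mem_filter.1 hp).2⟩)
  let lab : Q.V → ℚ := fun q => M q + ε * r q
  have hstrict : StrictMono lab := fun q q' h => by
    have hle : toLinearExtension q ≤ toLinearExtension q' := toLinearExtension.monotone h.le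
    have hlt : r q < r q' := hrlt q q' (lt_of_le_of_ne hle fun he => h.ne he)
    have hM : M q ≤ M q' := SimpSys.Vert.maxLab_mono (φ.monotone h.le)
    show M q + ε * r q < M q' + ε * r q'
    nlinarith
  refine ⟨lab, hstrict, ?_, fun q => ?_, fun q q' a ha => ?_⟩
  · have key : ∀ q q', lab q = lab q' → ¬ M q < M q' := fun q q' h hlt => by
      have := hgap q q' _ (SimpSys.Vert.maxLab_mem _) hlt
      have h1 := hr q
      have h2 := hr q'
      have h' : M q + ε * r q = M q' + ε * r q' := h
      show False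
      have : ε * r q < ε := by nlinarith
      have : 0 < ε * r q' := mul_pos hε h2.1
      linarith
    intro q q' h
    rcases lt_trichotomy (M q) (M q') with hlt | heq | hgt
    · exact absurd hlt (key q q' h)
    · have h' : M q + ε * r q = M q' + ε * r q' := h
      rw [heq, add_right_inj, mul_eq_mul_left_iff, or_iff_left hε.ne'] at h'
      rcases lt_trichotomy (toLinearExtension q) (toLinearExtension q') with hlt | he | hgt
      · exact absurd h' (hrlt _ _ hlt).ne
      · exact he
      · exact absurd h' (hrlt _ _ hgt).ne'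
    · exact absurd hgt (key q' q h.symm)
  · exact lt_add_of_pos_right _ (mul_pos hε (hr q).1)
  · by_cases h : a ≤ M q
    · exact Or.inl h
    · refine Or.inr ?_
      have := hgap q q' a ha (not_le.1 h)
      have h1 := hr q
      show M q + ε * r q < a
      nlinarith

section Mid

variable {φ : Q.V →o S.Vert} {lab : Q.V → ℚ}

open scoped Classical in
/-- The relabelling: a label of a vertex of the domain goes to the largest label of its image. -/
def relab (φ : Q.V →o S.Vert) (lab : Q.V → ℚ) (a : ℚ) : ℚ :=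
  if h : ∃ q, lab q = a then (φ h.choose).maxLab else a

theorem relab_lab (h : Sep φ lab) (q : Q.V) : relab φ lab (lab q) = (φ q).maxLab := by
  have hq : ∃ q', lab q' = lab q := ⟨q, rfl⟩
  rw [relab, dif_pos hq, h.injective hq.choose_spec]

theorem relab_of_mem (h : Sep φ lab) {q : Q.V} {a : ℚ} (ha : a ∈ (φ q).labs) :
    relab φ lab a = a := by
  rw [relab, dif_neg]
  rintro ⟨p, rfl⟩
  rcases h.gap p q _ ha with h' | h'
  · exact not_lt.2 h' (h.gt p)
  · exact lt_irrefl _ h'

variable {J : Cx Q.V} (hJ : Q.Carries J)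

open scoped Classical in
/-- The labels of the middle vertex. -/
def midLabs (φ : Q.V →o S.Vert) (lab : Q.V → ℚ) (s : J.Simplex) : Finset ℚ :=
  (φ (hJ.topV s)).labs ∪ s.1.image lab

theorem midLabs_nonempty (s : J.Simplex) : (midLabs hJ φ lab s).Nonempty := by
  classical
  exact (SimpSys.Vert.labs_nonempty _).mono Finset.subset_union_left

theorem relab_mem (h : Sep φ lab) (s : J.Simplex) {a : ℚ} (ha : a ∈ midLabs hJ φ lab s) :
    relab φ lab a ∈ (φ (hJ.topV s)).labs := by
  classical
  rcases Finset.mem_union.1 ha with ha | ha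
  · rwa [relab_of_mem h ha]
  · obtain ⟨q, hq, rfl⟩ := Finset.mem_image.1 ha
    rw [relab_lab h]
    exact SimpSys.Vert.labs_subset (φ.monotone (hJ.le_topV s hq)) (SimpSys.Vert.maxLab_mem _)

theorem relab_monotoneOn (h : Sep φ lab) (s : J.Simplex) :
    MonotoneOn (relab φ lab) (midLabs hJ φ lab s : Set ℚ) := by
  classical
  intro a ha b hb hab
  rcases Finset.mem_union.1 ha with ha | ha <;> rcases Finset.mem_union.1 hb with hb | hb
  · rw [relab_of_mem h ha, relab_of_mem h hb]
    exact hab
  · obtain ⟨q, -, rfl⟩ := Finset.mem_image.1 hb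
    rw [relab_of_mem h ha, relab_lab h]
    rcases h.gap q _ a ha with h' | h'
    · exact h'
    · exact absurd h' (not_lt.2 hab)
  · obtain ⟨q, -, rfl⟩ := Finset.mem_image.1 ha
    rw [relab_lab h, relab_of_mem h hb]
    exact (h.gt q).le.trans hab
  · obtain ⟨q, hq, rfl⟩ := Finset.mem_image.1 ha
    obtain ⟨q', hq', rfl⟩ := Finset.mem_image.1 hb
    rw [relab_lab h, relab_lab h]
    obtain ⟨k, v, hv⟩ := hJ s.1 s.2.1 s.2.2
    obtain ⟨i, rfl⟩ : q ∈ Set.range v.1 := hv ▸ hq
    obtain ⟨i', rfl⟩ : q' ∈ Set.range v.1 := hv ▸ hq'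
    exact SimpSys.Vert.maxLab_mono (φ.monotone ((Q.strictMono v.2).monotone
      ((h.strictMono.comp (Q.strictMono v.2)).le_iff_le.1 hab)))

/-- The middle map. -/
def midMap (h : Sep φ lab) : J.Simplex →o S.Vert where
  toFun s := SimpSys.Vert.pull (φ (hJ.topV s)) (midLabs hJ φ lab s) (midLabs_nonempty hJ s)
    (relab φ lab) (relab_monotoneOn hJ h s) fun _ ha => relab_mem hJ h s ha
  monotone' s t hst := by
    classical
    refine SimpSys.Vert.pull_le (φ.monotone (hJ.topV.monotone hst)) _ _
      (Finset.union_subset_union (SimpSys.Vert.labs_subset (φ.monotone (hJ.topV.monotone hst)))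
        (Finset.image_subset_image hst)) _ _ _ _ _

theorem comp_topV_le_midMap (h : Sep φ lab) : φ.comp hJ.topV ≤ midMap hJ h := by
  classical
  intro s
  have hy : ∀ a ∈ (φ (hJ.topV s)).labs, relab φ lab a ∈ (φ (hJ.topV s)).labs := fun a ha => by
    rwa [relab_of_mem h ha]
  have hsub : (φ (hJ.topV s)).labs ⊆ midLabs hJ φ lab s := Finset.subset_union_left
  show φ (hJ.topV s) ≤ _
  conv_lhs => rw [← SimpSys.Vert.pull_self (φ (hJ.topV s)) (relab φ lab)
    ((relab_monotoneOn hJ h s).mono (Finset.coe_subset.2 hsub)) hy fun a ha => relab_of_mem h ha]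
  exact SimpSys.Vert.pull_le le_rfl _ _ hsub _ _ _ _ _

theorem psi_gphi_le_midMap (h : Sep φ lab) :
    (gphi φ).psi lab h.strictMono hJ ≤ midMap hJ h := by
  classical
  intro s
  have hsub : s.1.image lab ⊆ midLabs hJ φ lab s := Finset.subset_union_right
  have hy : ∀ a ∈ s.1.image lab, relab φ lab a ∈ (φ (hJ.topV s)).labs := fun a ha =>
    relab_mem hJ h s (hsub ha)
  have hrange : Set.range (lab ∘ (hJ.enum s).1) = ((s.1.image lab : Finset ℚ) : Set ℚ) := by
    rw [Set.range_comp, hJ.range_enum, Finset.coe_image]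
  have key := SimpSys.Vert.pull_eq_mk (φ (hJ.topV s)) (s.1.image lab) (s.2.2.image lab)
    (relab φ lab) ((relab_monotoneOn hJ h s).mono (Finset.coe_subset.2 hsub)) hy
    (lab ∘ (hJ.enum s).1) (h.strictMono.comp (Q.strictMono (hJ.enum s).2)) hrange
    (maxOp φ (hJ.enum s)) fun i => (lab_maxOp φ (hJ.enum s) i).trans
      (relab_lab h ((hJ.enum s).1 i)).symm
  refine le_trans (le_of_eq key.symm) ?_
  exact SimpSys.Vert.pull_le le_rfl _ _ hsub _ _ _ _ _

end Mid

end

end Vale.Agent.P259
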