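import Vale.Agent.P259.Real.Key

/-!
# P259, realisation: the natural homotopy from an approximated map to the map of a family
-/

namespace Vale.Agent.P259

open P259.Complex
open P259.Complex.Real (mapO)
open scoped unitInterval Classical

noncomputable section

section Tools

variable {P P' R : Type} [PartialOrder P] [PartialOrder P'] [PartialOrder R]

/-- Linearity of the realisation of a monotone map. -/
theorem mapO_line (f : P →o R) (x y : P259.Complex.Real (Cx.chains P))
    (h : x.w.support ∪ y.w.support ∈ (Cx.chains P).simp)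
    (h' : (mapO f x).w.support ∪ (mapO f y).w.support ∈ (Cx.chains R).simp) (t : I) :
    mapO f (P259.Complex.Real.line x y h t) =
      P259.Complex.Real.line (mapO f x) (mapO f y) h' t := by
  refine P259.Complex.Real.ext ?_
  show ((1 - (t : ℝ)) • x.w + (t : ℝ) • y.w).mapDomain f =
    (1 - (t : ℝ)) • x.w.mapDomain f + (t : ℝ) • y.w.mapDomain f
  rw [Finsupp.mapDomain_add, Finsupp.mapDomain_smul, Finsupp.mapDomain_smul]

theorem line_congr {V : Type} {K : Cx V} {x y x' y' : P259.Complex.Real K}
    (hx : x = x') (hy : y = y') (h : x.w.support ∪ y.w.support ∈ K.simp)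
    (h' : x'.w.support ∪ y'.w.support ∈ K.simp) (t : I) :
    P259.Complex.Real.line x y h t = P259.Complex.Real.line x' y' h' t := by
  subst hx hy; rfl

theorem prismPt_congr {f g f' g' : P →o R} (hf : f = f') (hg : g = g') (h : f ≤ g) (h' : f' ≤ g')
    (x : P259.Complex.Real (Cx.chains P)) (t : I) :
    P259.Complex.Real.prismPt f g h x t = P259.Complex.Real.prismPt f' g' h' x t := by
  subst hf hg; rfl

/-- The embedding of subdivisions induced by an embedding of posets. -/
def sdEmb (e : P' ↪o P) : (Cx.chains P').Simplex ↪o (Cx.chains P).Simplex :=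
  OrderEmbedding.ofMapLEIff (Cx.sdMap e.toOrderHom) fun s t => by
    show (Cx.sdMap e.toOrderHom s).1 ⊆ (Cx.sdMap e.toOrderHom t).1 ↔ s.1 ⊆ t.1
    rw [Cx.sdMap_val, Cx.sdMap_val]
    exact Finset.image_subset_image_iff e.injective

theorem sdEmb_val (e : P' ↪o P) (s : (Cx.chains P').Simplex) :
    ((sdEmb e s).1 : Set P) = e '' (s.1 : Set P') := by
  show ((Cx.sdMap e.toOrderHom s).1 : Set P) = _
  rw [Cx.sdMap_val, Finset.coe_image]
  rfl

theorem bary_mapO_sdEmb (e : P' ↪o P)
    (z : P259.Complex.Real (Cx.chains (Cx.chains P').Simplex)) :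
    P259.Complex.Real.bary (mapO (sdEmb e).toOrderHom z) =
      mapO e.toOrderHom (P259.Complex.Real.bary z) := by
  refine P259.Complex.Real.ext (Finsupp.ext fun p => ?_)
  have hsupp : (mapO (sdEmb e).toOrderHom z).w.support = z.w.support.image (sdEmb e) :=
    Finsupp.mapDomain_support_of_injective (sdEmb e).injective z.w
  have hw : ∀ s, (mapO (sdEmb e).toOrderHom z).w (sdEmb e s) = z.w s := fun s =>
    Finsupp.mapDomain_apply (sdEmb e).injective z.w s
  have hcard : ∀ s : (Cx.chains P').Simplex, (sdEmb e s).1.card = s.1.card := fun s => by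
    show (Cx.sdMap e.toOrderHom s).1.card = _
    rw [Cx.sdMap_val]
    exact Finset.card_image_of_injective _ e.injective
  rw [P259.Complex.Real.bary_apply, P259.Complex.Real.baryVal, hsupp,
    Finset.sum_image (sdEmb e).injective.injOn]
  show _ = ((P259.Complex.Real.bary z).w.mapDomain e) p
  by_cases hp : p ∈ Set.range e
  · obtain ⟨p', rfl⟩ := hp
    rw [Finsupp.mapDomain_apply e.injective, P259.Complex.Real.bary_apply,
      P259.Complex.Real.baryVal]
    refine Finset.sum_congr rfl fun s _ => ?_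
    rw [hw, hcard]
    refine if_congr ?_ rfl rfl
    rw [← Finset.mem_coe, sdEmb_val, e.injective.mem_set_image, Finset.mem_coe]
  · rw [Finsupp.mapDomain_of_notMem_range _ _ hp]
    refine Finset.sum_eq_zero fun s _ => if_neg fun h => hp ?_
    rw [← Finset.mem_coe, sdEmb_val] at h
    exact Set.image_subset_range _ _ h

/-- The greatest element of a chain. -/
def topC (P : Type) [PartialOrder P] : (Cx.chains P).Simplex →o P :=
  (OCx.carries_chains P).topV

theorem topC_mem (s : (Cx.chains P).Simplex) : topC P s ∈ s.1 :=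
  (OCx.carries_chains P).topV_mem s

theorem le_topC (s : (Cx.chains P).Simplex) {p : P} (hp : p ∈ s.1) : p ≤ topC P s :=
  (OCx.carries_chains P).le_topV s hp

theorem topC_sdEmb (e : P' ↪o P) (s : (Cx.chains P').Simplex) :
    topC P (sdEmb e s) = e (topC P' s) := by
  have hmem : e (topC P' s) ∈ ((sdEmb e s).1 : Set P) :=
    sdEmb_val e s ▸ Set.mem_image_of_mem _ (topC_mem s)
  refine le_antisymm ?_ (le_topC _ hmem)
  have h : topC P (sdEmb e s) ∈ e '' (s.1 : Set P') := sdEmb_val e s ▸ topC_mem (sdEmb e s)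
  obtain ⟨p, hp, hpe⟩ := h
  exact hpe ▸ e.monotone (le_topC s hp)

/-- The barycentric map as a continuous map. -/
def baryC (P : Type) [PartialOrder P] [Finite P] :
    C(P259.Complex.Real (Cx.chains (Cx.chains P).Simplex), P259.Complex.Real (Cx.chains P)) :=
  ⟨P259.Complex.Real.bary,
    have := Fintype.ofFinite P
    P259.Complex.Real.continuous_bary⟩

end Tools

variable {P P' : Type} [PartialOrder P] [PartialOrder P'] {S S' : SimpSys}

/-- The middle map of a poset. -/
def midC (φ : P →o S.Vert) {lab : P → ℚ} (h : Sep (Q := OCx.chains P) φ lab) :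
    (Cx.chains P).Simplex →o S.Vert :=
  midMap (OCx.carries_chains P) h

/-- The map of vertices of the family of a monotone map. -/
def psiC (φ : P →o S.Vert) {lab : P → ℚ} (h : Sep (Q := OCx.chains P) φ lab) :
    (Cx.chains P).Simplex →o S.Vert :=
  (gphi (Q := OCx.chains P) φ).psi lab h.strictMono (OCx.carries_chains P)

theorem comp_topC_le_midC (φ : P →o S.Vert) {lab : P → ℚ} (h : Sep (Q := OCx.chains P) φ lab) :
    φ.comp (topC P) ≤ midC φ h :=
  comp_topV_le_midMap _ h

theorem psiC_le_midC (φ : P →o S.Vert) {lab : P → ℚ} (h : Sep (Q := OCx.chains P) φ lab) :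
    psiC φ h ≤ midC φ h :=
  psi_gphi_le_midMap _ h

variable [Finite P] [Finite P']

theorem toPsi_aux (φ : P →o S.Vert) (f : C(P259.Complex.Real (Cx.chains P), S.Space))
    (hf : ∀ x, x.w.support.image φ ⊆ (f x).w.support)
    (z : P259.Complex.Real (Cx.chains (Cx.chains P).Simplex)) :
    ((f.comp (baryC P)) z).w.support ∪ (mapO (φ.comp (topC P)) z).w.support ∈
      (Cx.chains S.Vert).simp := by
  refine (Cx.chains S.Vert).down (f (P259.Complex.Real.bary z)).mem
    (Finset.union_subset subset_rfl (((P259.Complex.Real.mapO_support _ z).trans ?_).trans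
      (hf (P259.Complex.Real.bary z))))
  intro y hy
  obtain ⟨s, hs, rfl⟩ := Finset.mem_image.1 hy
  exact Finset.mem_image_of_mem φ (P259.Complex.Real.subset_bary_support hs (topC_mem s))

/-- The natural homotopy from an approximated map to the map of its family. -/
def toPsi (φ : P →o S.Vert) {lab : P → ℚ} (h : Sep (Q := OCx.chains P) φ lab)
    (f : C(P259.Complex.Real (Cx.chains P), S.Space))
    (hf : ∀ x, x.w.support.image φ ⊆ (f x).w.support) :
    ContinuousMap.Homotopy (f.comp (baryC P)) (mapO (psiC φ h)) :=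
  (P259.Complex.Real.lineHomotopy _ _ (toPsi_aux φ f hf)).trans
    ((P259.Complex.Real.prismHomotopy _ _ (comp_topC_le_midC φ h)).trans
      (P259.Complex.Real.prismHomotopy _ _ (psiC_le_midC φ h)).symm)

omit [Finite P] [Finite P'] in
theorem pull_congr_vert {y y' : S.Vert} (hyy : y = y') {L L' : Finset ℚ} (hLL : L = L')
    {m m' : ℚ → ℚ} (hL : L.Nonempty) (hL' : L'.Nonempty) (hm : MonotoneOn m (L : Set ℚ))
    (hm' : MonotoneOn m' (L' : Set ℚ)) (hy : ∀ a ∈ L, m a ∈ y.labs)
    (hy' : ∀ a ∈ L', m' a ∈ y'.labs) (h : ∀ a ∈ L, m a = m' a) :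
    SimpSys.Vert.pull y L hL m hm hy = SimpSys.Vert.pull y' L' hL' m' hm' hy' := by
  subst hyy hLL
  exact SimpSys.Vert.pull_congr y L hL m hm hy m' hm' hy' h

omit [Finite P] [Finite P'] in
theorem vert_pull (r : S.Hom S') (hr : r.IsNat) (y : S.Vert) (L : Finset ℚ) (hL : L.Nonempty)
    (m : ℚ → ℚ) (hm : MonotoneOn m (L : Set ℚ)) (hy : ∀ a ∈ L, m a ∈ y.labs) :
    r.vert (SimpSys.Vert.pull y L hL m hm hy) = SimpSys.Vert.pull (r.vert y) L hL m hm hy := by
  rw [SimpSys.Vert.pull_eq_mk (r.vert y) L hL m hm hy _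
    (SimpSys.Vert.pull y L hL m hm hy).strictMono (SimpSys.Vert.range_pull y L hL m hm hy)
    (SimpSys.Vert.pullOp y L hL m hm hy) (SimpSys.Vert.lab_pullOp y L hL m hm hy)]
  exact congrArg (fun g => (⟨L.card - 1, (SimpSys.Vert.pull y L hL m hm hy).lab,
    (SimpSys.Vert.pull y L hL m hm hy).strictMono, g⟩ : S'.Vert))
    (hr (SimpSys.Vert.pullOp y L hL m hm hy) y.g)

omit [Finite P] [Finite P'] in
theorem vert_comp_midC (r : S.Hom S') (hr : r.IsNat) (φ : P →o S.Vert) {lab : P → ℚ}
    (h : Sep (Q := OCx.chains P) φ lab) :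
    r.vert.comp (midC φ h) = midC (r.vert.comp φ) ((Sep.vert r).2 h) :=
  OrderHom.ext _ _ (funext fun _ => vert_pull r hr _ _ _ _ _ _)

omit [Finite P] [Finite P'] in
theorem vert_comp_psiC (r : S.Hom S') (hr : r.IsNat) (φ : P →o S.Vert) {lab : P → ℚ}
    (h : Sep (Q := OCx.chains P) φ lab) :
    r.vert.comp (psiC φ h) = psiC (r.vert.comp φ) ((Sep.vert r).2 h) := by
  refine OrderHom.ext _ _ (funext fun s => ?_)
  exact congrArg (fun g : Fam (OCx.chains P) S' =>
    g.psiV lab h.strictMono ((OCx.carries_chains P).enum s))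
    (gphi_map (Q := OCx.chains P) φ r hr).symm

omit [Finite P] [Finite P'] in
theorem psiC_comp_sdEmb (φ : P →o S.Vert) (e : P' ↪o P) {lab : P → ℚ}
    (h : Sep (Q := OCx.chains P) φ lab) :
    (psiC φ h).comp (sdEmb e).toOrderHom =
      psiC (φ.comp e.toOrderHom) (h.comp (Q' := OCx.chains P') e.toOrderHom e.injective) := by
  refine OrderHom.ext _ _ (funext fun s => ?_)
  let v := (OCx.carries_chains P').enum s
  let w : (OCx.chains P).Simp _ := ⟨e ∘ v.1, e.strictMono.comp v.2⟩
  have hw : Set.range w.1 = ((sdEmb e s).1 : Set P) := by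
    rw [sdEmb_val]
    exact (Set.range_comp e v.1).trans (congrArg (fun u => e '' u)
      ((OCx.carries_chains P').range_enum s))
  refine (Fam.psi_apply (gphi (Q := OCx.chains P) φ) lab h.strictMono (OCx.carries_chains P)
    (sdEmb e s) w hw).trans ?_
  exact congrArg (fun g => (⟨_, lab ∘ w.1, h.strictMono.comp w.2, g⟩ : S.Vert))
    (gphi_comp (Q := OCx.chains P) (Q' := OCx.chains P') φ e.toOrderHom v w fun _ => rfl).symm

omit [Finite P] [Finite P'] in
theorem midC_comp_sdEmb (φ : P →o S.Vert) (e : P' ↪o P) {lab : P → ℚ}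
    (h : Sep (Q := OCx.chains P) φ lab) :
    (midC φ h).comp (sdEmb e).toOrderHom =
      midC (φ.comp e.toOrderHom) (h.comp (Q' := OCx.chains P') e.toOrderHom e.injective) := by
  refine OrderHom.ext _ _ (funext fun s => ?_)
  have htop : φ (topC P (sdEmb e s)) = φ (e (topC P' s)) := by rw [topC_sdEmb]
  refine pull_congr_vert htop ?_ _ _ _ _ _ _ ?_
  · show (φ (topC P (sdEmb e s))).labs ∪ (sdEmb e s).1.image lab =
      (φ (e (topC P' s))).labs ∪ s.1.image (lab ∘ e)
    rw [htop]
    congr 1
    refine Finset.coe_injective ?_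
    rw [Finset.coe_image, Finset.coe_image, sdEmb_val, ← Set.image_comp]
  · intro a ha
    rcases Finset.mem_union.1 ha with ha | ha
    · rw [relab_of_mem h ha]
      exact (relab_of_mem (h.comp (Q' := OCx.chains P') e.toOrderHom e.injective)
        (show a ∈ (φ (e (topC P' s))).labs from htop ▸ ha)).symm
    · obtain ⟨q, hq, rfl⟩ := Finset.mem_image.1 ha
      obtain ⟨q', -, rfl⟩ := (Set.ext_iff.1 (sdEmb_val e s) q).1 hq
      exact (relab_lab h (e q')).trans
        (relab_lab (h.comp (Q' := OCx.chains P') e.toOrderHom e.injective) q').symm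

omit [Finite P] [Finite P'] in
theorem midC_congr {φ φ₁ : P →o S.Vert} (hφ : φ = φ₁) {lab : P → ℚ}
    (h : Sep (Q := OCx.chains P) φ lab) (h₁ : Sep (Q := OCx.chains P) φ₁ lab) :
    midC φ h = midC φ₁ h₁ := by
  subst hφ; rfl

omit [Finite P] [Finite P'] in
theorem psiC_congr {φ φ₁ : P →o S.Vert} (hφ : φ = φ₁) {lab : P → ℚ}
    (h : Sep (Q := OCx.chains P) φ lab) (h₁ : Sep (Q := OCx.chains P) φ₁ lab) :
    psiC φ h = psiC φ₁ h₁ := by
  subst hφ; rfl

/-- Naturality of the homotopy: on a subposet where the map factors through another system, it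
factors. -/
theorem toPsi_natural (r : S'.Hom S) (hr : r.IsNat) (e : P' ↪o P) (φ : P →o S.Vert)
    (φ' : P' →o S'.Vert) (hφ : φ.comp e.toOrderHom = r.vert.comp φ') {lab : P → ℚ}
    (h : Sep (Q := OCx.chains P) φ lab) (h' : Sep (Q := OCx.chains P') φ' (lab ∘ e))
    (f : C(P259.Complex.Real (Cx.chains P), S.Space))
    (w : C(P259.Complex.Real (Cx.chains P'), S'.Space))
    (hfw : ∀ y, f (mapO e.toOrderHom y) = r.space (w y))
    (hf : ∀ x, x.w.support.image φ ⊆ (f x).w.support)
    (hw : ∀ y, y.w.support.image φ' ⊆ (w y).w.support) (t : I)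
    (z : P259.Complex.Real (Cx.chains (Cx.chains P').Simplex)) :
    toPsi φ h f hf (t, mapO (sdEmb e).toOrderHom z) =
      r.space (toPsi φ' h' w hw (t, z)) := by
  have hmid : (midC φ h).comp (sdEmb e).toOrderHom = r.vert.comp (midC φ' h') :=
    (midC_comp_sdEmb φ e h).trans ((midC_congr hφ _ ((Sep.vert r).2 h')).trans
      (vert_comp_midC r hr φ' h').symm)
  have hpsi : (psiC φ h).comp (sdEmb e).toOrderHom = r.vert.comp (psiC φ' h') :=
    (psiC_comp_sdEmb φ e h).trans ((psiC_congr hφ _ ((Sep.vert r).2 h')).trans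
      (vert_comp_psiC r hr φ' h').symm)
  have htop : (φ.comp (topC P)).comp (sdEmb e).toOrderHom = r.vert.comp (φ'.comp (topC P')) :=
    OrderHom.ext _ _ (funext fun s => by
      show φ (topC P (sdEmb e s)) = r.vert (φ' (topC P' s))
      rw [topC_sdEmb]
      exact DFunLike.congr_fun hφ (topC P' s))
  simp only [toPsi, ContinuousMap.Homotopy.trans_apply, ContinuousMap.Homotopy.symm_apply]
  split_ifs
  · rw [P259.Complex.Real.lineHomotopy_apply, P259.Complex.Real.lineHomotopy_apply]
    have e1 : f (P259.Complex.Real.bary (mapO (sdEmb e).toOrderHom z)) =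
        mapO r.vert (w (P259.Complex.Real.bary z)) := by
      rw [bary_mapO_sdEmb]
      exact hfw _
    have e2 : mapO (φ.comp (topC P)) (mapO (sdEmb e).toOrderHom z) =
        mapO r.vert (mapO (φ'.comp (topC P')) z) := by
      rw [P259.Complex.Real.mapO_comp, P259.Complex.Real.mapO_comp, htop]
    refine (line_congr e1 e2 _ ?_ _).trans (mapO_line r.vert _ _ _ ?_ _).symm
    all_goals
      refine (Cx.chains S.Vert).down ?_ (Finset.union_subset_union
        (P259.Complex.Real.mapO_support _ _) (P259.Complex.Real.mapO_support _ _))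
      rw [← Finset.image_union]
      exact Cx.isSimplicial_of_monotone r.vert.monotone _ (toPsi_aux φ' w hw z)
  · rw [P259.Complex.Real.prismHomotopy_apply, P259.Complex.Real.prismHomotopy_apply,
      P259.Complex.Real.prismPt_mapO]
    refine Eq.trans ?_ (P259.Complex.Real.mapO_prismPt _ _ _ r.vert _ _).symm
    exact prismPt_congr htop hmid _ _ _ _
  · rw [P259.Complex.Real.prismHomotopy_apply, P259.Complex.Real.prismHomotopy_apply,
      P259.Complex.Real.prismPt_mapO]
    refine Eq.trans ?_ (P259.Complex.Real.mapO_prismPt _ _ _ r.vert _ _).symm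
    exact prismPt_congr hpsi hmid _ _ _ _

end

end Vale.Agent.P259
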